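import Mathlib

/-!
# P238: edit distance and its distortion in `ℓ₁`
-/

namespace Vale.Agent.P238

/-- one insertion, deletion or substitution of a single symbol -/
inductive EditStep {α : Type*} : List α → List α → Prop
  | del (a b : List α) (c : α) : EditStep (a ++ c :: b) (a ++ b)
  | ins (a b : List α) (c : α) : EditStep (a ++ b) (a ++ c :: b)
  | sub (a b : List α) (c d : α) : EditStep (a ++ c :: b) (a ++ d :: b)

/-- reachable by exactly `k` edit operations -/
def Reach {α : Type*} : ℕ → List α → List α → Prop
  | 0, x, y => x = y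
  | k + 1, x, y => ∃ z, Reach k x z ∧ EditStep z y

/-- edit distance: the least number of operations -/
noncomputable def editDist {α : Type*} (x y : List α) : ℕ := sInf {k | Reach k x y}

/-- binary words of length `n` -/
abbrev Word (n : ℕ) := Fin n → Bool

/-- a word as a list -/
def wordList {n : ℕ} (x : Fin n → Bool) : List Bool := List.ofFn x

/-- edit distance of two words -/
noncomputable def ed {n : ℕ} (x y : Word n) : ℕ := editDist (wordList x) (wordList y)

/-- the space of absolutely summable real sequences -/
abbrev Ell1 := lp (fun _ : ℕ => ℝ) 1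

/-- pairs of different words -/
abbrev OffDiag (n : ℕ) := {p : Word n × Word n // p.1 ≠ p.2}

/-- largest expansion times largest contraction of a map -/
noncomputable def distortion {n : ℕ} (f : Word n → Ell1) : ℝ :=
  (⨆ p : OffDiag n, ‖f p.1.1 - f p.1.2‖ / (ed p.1.1 p.1.2 : ℝ)) *
    (⨆ p : OffDiag n, (ed p.1.1 p.1.2 : ℝ) / ‖f p.1.1 - f p.1.2‖)

/-- the distortion of `({0,1}ⁿ, ED)` in `ℓ₁` -/
noncomputable def c1 (n : ℕ) : ℝ :=
  sInf {d | ∃ f : Word n → Ell1, Function.Injective f ∧ distortion f = d}

end Vale.Agent.P238
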