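import Vale.Agent.P238.Scale
import Vale.Agent.P238.Statement

/-!
# P238: edit distance, the cost of a rotation, and the distance to a rotated random word
-/

open Finset

namespace Vale.Agent.P238

section Lists

variable {α : Type*}

theorem reach_trans {j : ℕ} {x y : List α} (h : Reach j x y) :
    ∀ {k : ℕ} {z : List α}, Reach k y z → Reach (j + k) x z
  | 0, _, e => e ▸ h
  | _ + 1, _, ⟨w, hw, hs⟩ => ⟨w, reach_trans h hw, hs⟩

theorem reach_append_right (c : List α) : ∀ {k : ℕ} {x y : List α},
    Reach k x y → Reach k (x ++ c) (y ++ c)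
  | 0, _, _, e => congrArg (· ++ c) e
  | _ + 1, _, _, ⟨w, hw, hs⟩ => by
    refine ⟨w ++ c, reach_append_right c hw, ?_⟩
    cases hs <;> simp only [List.append_assoc, List.cons_append] <;> constructor

theorem reach_delete (A C : List α) : ∀ B : List α, Reach B.length (A ++ B ++ C) (A ++ C) := by
  intro B
  induction B generalizing A with
  | nil => simp [Reach]
  | cons b B ih =>
    refine ⟨A ++ [b] ++ C, ?_, ?_⟩
    · have := ih (A ++ [b])
      simpa using this
    · simpa using EditStep.del A C b

theorem reach_insert (A C : List α) : ∀ B : List α, Reach B.length (A ++ C) (A ++ B ++ C) := by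
  intro B
  induction B using List.reverseRecOn generalizing C with
  | nil => simp [Reach]
  | append_singleton B b ih =>
    rw [List.length_append, List.length_singleton]
    refine ⟨A ++ B ++ C, ih C, ?_⟩
    simpa using EditStep.ins (A ++ B) C b

theorem exists_reach (x y : List α) : ∃ k, Reach k x y := by
  refine ⟨x.length + y.length, reach_trans (y := []) ?_ ?_⟩
  · simpa using reach_delete [] [] x
  · simpa using reach_insert [] [] y

theorem reach_editDist (x y : List α) : Reach (editDist x y) x y := Nat.sInf_mem (exists_reach x y)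

theorem editDist_le {k : ℕ} {x y : List α} (h : Reach k x y) : editDist x y ≤ k := Nat.sInf_le h

theorem editDist_pos {x y : List α} (h : x ≠ y) : 0 < editDist x y := by
  refine Nat.pos_of_ne_zero fun e => h ?_
  have := reach_editDist x y
  rwa [e] at this

theorem editDist_self (x : List α) : editDist x x = 0 :=
  Nat.le_zero.1 (editDist_le (k := 0) rfl)

theorem editDist_swap (A B₁ B₂ C : List α) :
    editDist (A ++ B₂ ++ B₁ ++ C) (A ++ B₁ ++ B₂ ++ C) ≤ 2 * B₁.length ∧
      editDist (A ++ B₂ ++ B₁ ++ C) (A ++ B₁ ++ B₂ ++ C) ≤ 2 * B₂.length := by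
  constructor <;> refine editDist_le ?_ <;> rw [two_mul]
  · refine reach_trans (reach_delete (A ++ B₂) C B₁) ?_
    have := reach_insert A (B₂ ++ C) B₁
    simpa [List.append_assoc] using this
  · refine reach_trans (y := A ++ B₁ ++ C) ?_ ?_
    · have := reach_delete A (B₁ ++ C) B₂
      simpa [List.append_assoc] using this
    · have := reach_insert (A ++ B₁) C B₂
      simpa [List.append_assoc] using this

theorem reach_common : ∀ {k : ℕ} {x y : List α}, Reach k x y →
    ∃ c : List α, c.Sublist x ∧ c.Sublist y ∧ x.length ≤ c.length + k ∧ y.length ≤ c.length + k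
  | 0, x, _, e => e ▸ ⟨x, List.Sublist.refl x, List.Sublist.refl x, le_rfl, le_rfl⟩
  | k + 1, x, _, ⟨w, hw, hs⟩ => by
    obtain ⟨c, hcx, hcw, hlx, hlw⟩ := reach_common hw
    have hdel : ∀ a b : List α, ∀ t : α, c.Sublist (a ++ t :: b) →
        ∃ c' : List α, c'.Sublist c ∧ c'.Sublist (a ++ b) ∧ c.length ≤ c'.length + 1 := by
      intro a b t hc
      obtain ⟨c1, c2, rfl, h1, h2⟩ := List.sublist_append_iff.1 hc
      rcases List.sublist_cons_iff.1 h2 with h | ⟨r, rfl, h⟩
      · exact ⟨c1 ++ c2, List.Sublist.refl _, h1.append h, Nat.le_succ _⟩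
      · exact ⟨c1 ++ r, List.Sublist.append (List.Sublist.refl _) (List.sublist_cons_self t r),
          h1.append h, by simp only [List.length_append, List.length_cons]; omega⟩
    cases hs with
    | del a b t =>
      obtain ⟨c', h1, h2, h3⟩ := hdel a b t hcw
      refine ⟨c', h1.trans hcx, h2, by omega, ?_⟩
      simp only [List.length_append, List.length_cons] at hlw ⊢; omega
    | ins a b t =>
      refine ⟨c, hcx, hcw.trans (List.Sublist.append (List.Sublist.refl a)
        (List.sublist_cons_self t b)), by omega, ?_⟩
      simp only [List.length_append, List.length_cons] at hlw ⊢; omega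
    | sub a b t t' =>
      obtain ⟨c', h1, h2, h3⟩ := hdel a b t hcw
      refine ⟨c', h1.trans hcx, h2.trans (List.Sublist.append (List.Sublist.refl a)
        (List.sublist_cons_self t' b)), by omega, ?_⟩
      simp only [List.length_append, List.length_cons] at hlw ⊢; omega

theorem sublist_window {c X : List α} {lo r k : ℕ} (hc : c.Sublist X)
    (hlen : X.length ≤ c.length + k) (hX : lo + r ≤ X.length) :
    ((c.drop lo).take (r - k)).Sublist ((X.drop lo).take r) := by
  have e : X = X.take lo ++ ((X.drop lo).take r ++ (X.drop lo).drop r) := by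
    rw [List.take_append_drop, List.take_append_drop]
  rw [e] at hc
  obtain ⟨c1, c', rfl, h1, h'⟩ := List.sublist_append_iff.1 hc
  obtain ⟨c2, c3, rfl, h2, h3⟩ := List.sublist_append_iff.1 h'
  have l1 := h1.length_le
  have l2 := h2.length_le
  have l3 := h3.length_le
  simp only [List.length_take, List.length_drop, List.length_append] at l1 l2 l3 hlen
  rw [List.drop_append, List.drop_of_length_le (show c1.length ≤ lo by omega), List.nil_append,
    List.drop_append, List.take_append_of_le_length]
  · exact ((List.take_sublist _ _).trans (List.drop_sublist _ _)).trans h2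
  · rw [List.length_drop]; omega

end Lists

/-- pad a word with zeros -/
def padWord {N : ℕ} (n : ℕ) (x : Fin N → Bool) : Fin n → Bool :=
  fun i => if h : i.val < N then x ⟨i.val, h⟩ else false

variable {N n : ℕ}

theorem wordList_pad (hn : N ≤ n) (x : Fin N → Bool) :
    wordList (padWord n x) = wordList x ++ List.replicate (n - N) false := by
  apply List.ext_getElem
  · simp [wordList]; omega
  · intro i h1 h2
    simp only [wordList, List.getElem_ofFn, List.getElem_append, List.length_ofFn, padWord,
      List.getElem_replicate]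

theorem ed_pad_le (hn : N ≤ n) (x y : Fin N → Bool) :
    editDist (wordList (padWord n x)) (wordList (padWord n y)) ≤
      editDist (wordList x) (wordList y) := by
  rw [wordList_pad hn, wordList_pad hn]
  exact editDist_le (reach_append_right _ (reach_editDist _ _))

theorem rot_ed (hn : N ≤ n) {lo len s : ℕ} (h : lo + len ≤ N) (hs : s ≤ len) (x : Fin N → Bool) :
    editDist (wordList (padWord n (x ∘ rot lo len s))) (wordList (padWord n x)) ≤ 2 * s ∧
    editDist (wordList (padWord n (x ∘ rot lo len s))) (wordList (padWord n x)) ≤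
      2 * (len - s) := by
  set L := wordList x with hL
  have hlen : L.length = N := List.length_ofFn
  have e1 : L = L.take lo ++ (L.drop lo).take s ++ (L.drop (lo + s)).take (len - s) ++
      L.drop (lo + len) := by
    apply List.ext_getElem
    · simp [hlen]; omega
    · intro i h1 h2
      simp only [List.getElem_append, List.getElem_take, List.getElem_drop, List.length_append,
        List.length_take, List.length_drop, hlen]
      split_ifs <;> congr 1 <;> omega
  have e2 : wordList (x ∘ rot lo len s) = L.take lo ++ (L.drop (lo + s)).take (len - s) ++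
      (L.drop lo).take s ++ L.drop (lo + len) := by
    apply List.ext_getElem
    · simp [hlen, wordList]; omega
    · intro i h1 h2
      have hi : i < N := by simpa [wordList] using h1
      simp only [List.getElem_append, List.getElem_take, List.getElem_drop, List.length_append,
        List.length_take, List.length_drop, hlen]
      simp only [hL, wordList, List.getElem_ofFn, Function.comp]
      split_ifs with a b c <;> refine congrArg x (Fin.ext ?_) <;> rw [rot_val h] <;>
        simp only [rotN] <;> split_ifs <;>
        first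
        | omega
        | (rw [Nat.mod_eq_of_lt (by omega)]; omega)
        | (rw [Nat.mod_eq_sub_mod (by omega), Nat.mod_eq_of_lt (by omega)]; omega)
  have hsw := editDist_swap (L.take lo) ((L.drop lo).take s) ((L.drop (lo + s)).take (len - s))
    (L.drop (lo + len))
  rw [← e1, ← e2] at hsw
  simp only [List.length_take, List.length_drop, hlen] at hsw
  have hp := ed_pad_le hn (x ∘ rot lo len s) x
  rw [← hL] at hp
  constructor <;> omega

theorem flip_ed (hn : N ≤ n) (i : Fin N) (x : Fin N → Bool) :
    editDist (wordList (padWord n (flipBit i x))) (wordList (padWord n x)) ≤ 1 := by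
  refine (ed_pad_le hn _ _).trans (editDist_le ⟨wordList (flipBit i x), rfl, ?_⟩)
  set L := wordList x with hL
  have hlen : L.length = N := List.length_ofFn
  have e1 : L = L.take i.val ++ x i :: L.drop (i.val + 1) := by
    conv_lhs => rw [← List.take_append_drop i.val L, List.drop_eq_getElem_cons (by omega)]
    simp [hL, wordList]
  have e2 : wordList (flipBit i x) = L.take i.val ++ (!x i) :: L.drop (i.val + 1) := by
    apply List.ext_getElem
    · simp [hlen, wordList]; omega
    · intro j h1 h2
      simp only [List.getElem_append, List.getElem_take, List.length_take, hlen,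
        List.getElem_cons, List.getElem_drop]
      simp only [hL, wordList, List.getElem_ofFn, flipBit, Function.update_apply, Fin.ext_iff]
      split_ifs <;> first | rfl | omega | (congr 1; simp only [Fin.ext_iff]; omega)
  have := EditStep.sub (L.take i.val) (L.drop (i.val + 1)) (!x i) (x i)
  rwa [← e1, ← e2] at this

theorem choose_bound (a : ℕ) : ((64 * a).choose a : ℝ) ≤ 2 ^ (10 * a) := by
  have h : ((64 * a).choose a : ℝ) * 15 ^ (63 * a) ≤ 16 ^ (64 * a) := by
    have := add_pow (1:ℝ) 15 (64 * a)
    norm_num at this
    rw [this]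
    refine le_trans (le_of_eq ?_) (single_le_sum (f := fun m =>
      (15:ℝ) ^ (64 * a - m) * ((64 * a).choose m : ℝ)) (fun m _ => by positivity)
      (mem_range.2 (by omega : a < 64 * a + 1)))
    rw [show 64 * a - a = 63 * a by omega]; ring
  have h2 : (16:ℝ) ^ (64 * a) ≤ 2 ^ (10 * a) * 15 ^ (63 * a) := by
    rw [pow_mul, pow_mul, pow_mul, ← mul_pow]
    gcongr; norm_num
  exact le_of_mul_le_mul_right (h.trans h2) (by positivity)

theorem rot_ed_lower (hn : N ≤ n) {lo a : ℕ} (ha : 0 < a) (h : lo + 4 * (64 * a) ≤ N) :
    (a:ℝ) / 2 ≤ avg fun x : Fin N → Bool => (editDist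
      (wordList (padWord n (x ∘ rot lo (4 * (64 * a)) (64 * a))))
      (wordList (padWord n x)) : ℝ) := by
  classical
  set r := 64 * a with hr
  set e := 63 * a with he
  set D : (Fin N → Bool) → ℕ := fun x => editDist
    (wordList (padWord n (x ∘ rot lo (4 * r) r))) (wordList (padWord n x))
  set C := (univ : Finset (Fin r)).powersetCard e
  let p : Fin r → Fin N := fun i => ⟨lo + i.val, by omega⟩
  let p' : Fin r → Fin N := fun i => ⟨lo + r + i.val, by omega⟩
  let term : C → C → (Fin N → Bool) → ℝ := fun s t x => ∏ i : Fin e,
    if x (p' (s.1.orderEmbOfFin (mem_powersetCard.1 s.2).2 i)) =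
      x (p (t.1.orderEmbOfFin (mem_powersetCard.1 t.2).2 i)) then 1 else 0
  have hnn : ∀ s t x, 0 ≤ term s t x := fun s t x => prod_nonneg fun i _ => by
    split <;> norm_num
  have hev : ∀ x, D x < a → (1:ℝ) ≤ ∑ s : C, ∑ t : C, term s t x := by
    intro x hD
    obtain ⟨c, hcy, hcx, hly, hlx⟩ := reach_common (reach_editDist
      (wordList (padWord n (x ∘ rot lo (4 * r) r))) (wordList (padWord n x)))
    have hL : ∀ z : Fin n → Bool, (wordList z).length = n := fun z => List.length_ofFn
    set W := fun z : Fin n → Bool => ((wordList z).drop lo).take r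
    set d := ((c.drop lo).take (r - D x)).take e with hd
    have hdy : d.Sublist (W (padWord n (x ∘ rot lo (4 * r) r))) :=
      (List.take_sublist _ _).trans (sublist_window hcy hly (by rw [hL]; omega))
    have hdx : d.Sublist (W (padWord n x)) :=
      (List.take_sublist _ _).trans (sublist_window hcx hlx (by rw [hL]; omega))
    rw [hL] at hlx
    have hDd : d.length = e := by
      simp only [hd, List.length_take, List.length_drop]
      have : D x = editDist (wordList (padWord n (x ∘ rot lo (4 * r) r)))
        (wordList (padWord n x)) := rfl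
      omega
    have hW : ∀ z : Fin n → Bool, (W z).length = r := fun z => by
      simp only [W, List.length_take, List.length_drop, hL]; omega
    obtain ⟨g, hg⟩ := List.sublist_iff_exists_fin_orderEmbedding_get_eq.1 hdy
    obtain ⟨g', hg'⟩ := List.sublist_iff_exists_fin_orderEmbedding_get_eq.1 hdx
    let G : Fin e ↪o Fin r := ((Fin.castOrderIso hDd.symm).toOrderEmbedding.trans g).trans
      (Fin.castOrderIso (hW _)).toOrderEmbedding
    let G' : Fin e ↪o Fin r := ((Fin.castOrderIso hDd.symm).toOrderEmbedding.trans g').trans
      (Fin.castOrderIso (hW _)).toOrderEmbedding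
    have mem : ∀ F : Fin e ↪o Fin r, univ.map F.toEmbedding ∈ C := fun F =>
      mem_powersetCard.2 ⟨subset_univ _, by simp⟩
    have eqF : ∀ F : Fin e ↪o Fin r,
        (univ.map F.toEmbedding).orderEmbOfFin (mem_powersetCard.1 (mem F)).2 = F :=
      fun F => (orderEmbOfFin_unique' _ fun i => mem_map_of_mem _ (mem_univ i)).symm
    refine le_trans (le_of_eq ?_) ((single_le_sum (f := fun t => term ⟨_, mem G⟩ t x)
      (fun t _ => hnn _ t x) (mem_univ (⟨_, mem G'⟩ : C))).trans
      (single_le_sum (f := fun s => ∑ t, term s t x)
        (fun s _ => sum_nonneg fun t _ => hnn s t x) (mem_univ (⟨_, mem G⟩ : C))))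
    refine (prod_eq_one fun i _ => if_pos ?_).symm
    simp only [eqF]
    have k1 := hg (Fin.cast hDd.symm i)
    have k2 := hg' (Fin.cast hDd.symm i)
    rw [k1] at k2
    have v1 : (G i : ℕ) < r := (G i).2
    have v2 : (G' i : ℕ) < r := (G' i).2
    simp only [List.get_eq_getElem, W, List.getElem_take, List.getElem_drop, wordList,
      List.getElem_ofFn, padWord] at k2
    have gv : (G i : ℕ) = (g (Fin.cast hDd.symm i) : ℕ) := rfl
    have gv' : (G' i : ℕ) = (g' (Fin.cast hDd.symm i) : ℕ) := rfl
    rw [dif_pos (by omega), dif_pos (by omega)] at k2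
    refine Eq.trans ?_ k2
    simp only [Function.comp]
    refine congrArg x (Fin.ext ?_)
    rw [rot_val h]
    simp only [p', rotN]
    rw [if_pos ⟨by omega, by omega⟩, Nat.mod_eq_of_lt (by omega)]
    omega
  have hterm : ∀ s t, avg (term s t) = (1 / 2) ^ e := by
    intro s t
    refine avg_prod_eq _ _ ?_ ?_ ?_
    · intro i j hij
      exact (orderEmbOfFin _ _).injective (Fin.ext (by simpa [p'] using hij))
    · intro i j hij
      exact (orderEmbOfFin _ _).injective (Fin.ext (by simpa [p] using hij))
    · intro i j hij
      simp only [p', p, Fin.mk.injEq] at hij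
      have := (t.1.orderEmbOfFin (mem_powersetCard.1 t.2).2 j).2
      omega
  have hsmall : avg (fun x => ∑ s : C, ∑ t : C, term s t x) ≤ 1 / 2 := by
    simp only [avg_sum, hterm, sum_const, nsmul_eq_mul, card_univ, Fintype.card_coe]
    have hc : (C.card : ℝ) ≤ 2 ^ (10 * a) := by
      rw [card_powersetCard, card_univ, Fintype.card_fin, hr, he,
        Nat.choose_symm_of_eq_add (show 64 * a = 63 * a + a by omega)]
      exact choose_bound a
    calc (C.card : ℝ) * (C.card * (1 / 2) ^ e)
        ≤ 2 ^ (10 * a) * (2 ^ (10 * a) * (1 / 2) ^ e) := by gcongr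
      _ = (1 / 2) ^ (43 * a) := by
          rw [← mul_assoc, ← pow_add, one_div, inv_pow, inv_pow,
            ← div_eq_mul_inv, div_eq_iff (by positivity), inv_mul_eq_div,
            eq_div_iff (by positivity), ← pow_add]
          congr 1; omega
      _ ≤ 1 / 2 := pow_le_of_le_one (by norm_num) (by norm_num) (by omega)
  have hpt : ∀ x, (a:ℝ) - a * ∑ s : C, ∑ t : C, term s t x ≤ D x := by
    intro x
    have hs : 0 ≤ ∑ s : C, ∑ t : C, term s t x :=
      sum_nonneg fun s _ => sum_nonneg fun t _ => hnn s t x
    rcases lt_or_ge (D x) a with hD | hD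
    · have := hev x hD
      nlinarith [Nat.cast_nonneg (α := ℝ) (D x), Nat.cast_nonneg (α := ℝ) a]
    · have : (a:ℝ) ≤ D x := by exact_mod_cast hD
      nlinarith [mul_nonneg (Nat.cast_nonneg (α := ℝ) a) hs]
  have := avg_mono hpt
  rw [avg_sub, avg_const, avg_const_mul] at this
  nlinarith [mul_le_mul_of_nonneg_left hsmall (Nat.cast_nonneg (α := ℝ) a)]

end Vale.Agent.P238
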