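import Mathlib

/-!
# P238: Fourier analysis on the discrete cube
-/

open Finset

namespace Vale.Agent.P238

variable {ι : Type*} [Fintype ι] [DecidableEq ι]

/-- average over the cube -/
noncomputable def avg (F : (ι → Bool) → ℝ) : ℝ := (∑ x, F x) / 2 ^ Fintype.card ι

/-- sign of a bit -/
def sgn (b : Bool) : ℝ := if b then -1 else 1

/-- Walsh character -/
def chi (S : Finset ι) (x : ι → Bool) : ℝ := ∏ i ∈ S, sgn (x i)

/-- Fourier coefficient -/
noncomputable def coef (f : (ι → Bool) → ℝ) (S : Finset ι) : ℝ := avg fun x => f x * chi S x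

/-- flip one bit -/
def flipBit (i : ι) (x : ι → Bool) : ι → Bool := Function.update x i (!x i)

/-- mean squared difference -/
noncomputable def sep (f g : (ι → Bool) → ℝ) : ℝ := avg fun x => (f x - g x) ^ 2

/-- influence of a bit -/
noncomputable def infl (f : (ι → Bool) → ℝ) (i : ι) : ℝ := sep f fun x => f (flipBit i x)

theorem sgn_mul_self (b : Bool) : sgn b * sgn b = 1 := by cases b <;> simp [sgn]

theorem sgn_not (b : Bool) : sgn (!b) = -sgn b := by cases b <;> simp [sgn]

theorem avg_add (F G : (ι → Bool) → ℝ) : avg (fun x => F x + G x) = avg F + avg G := by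
  simp [avg, sum_add_distrib, add_div]

theorem avg_sub (F G : (ι → Bool) → ℝ) : avg (fun x => F x - G x) = avg F - avg G := by
  simp [avg, sum_sub_distrib, sub_div]

theorem avg_const_mul (c : ℝ) (F : (ι → Bool) → ℝ) : avg (fun x => c * F x) = c * avg F := by
  simp [avg, ← mul_sum, mul_div_assoc]

theorem avg_sum {κ : Type*} (s : Finset κ) (F : κ → (ι → Bool) → ℝ) :
    avg (fun x => ∑ k ∈ s, F k x) = ∑ k ∈ s, avg (F k) := by
  simp only [avg]; rw [sum_comm, sum_div]

theorem avg_mono {F G : (ι → Bool) → ℝ} (h : ∀ x, F x ≤ G x) : avg F ≤ avg G :=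
  div_le_div_of_nonneg_right (sum_le_sum fun x _ => h x) (by positivity)

theorem avg_nonneg {F : (ι → Bool) → ℝ} (h : ∀ x, 0 ≤ F x) : 0 ≤ avg F :=
  div_nonneg (sum_nonneg fun x _ => h x) (by positivity)

theorem avg_const (c : ℝ) : avg (fun _ : ι → Bool => c) = c := by
  simp [avg]

theorem avg_comp_equiv (e : (ι → Bool) ≃ (ι → Bool)) (F : (ι → Bool) → ℝ) :
    avg (fun x => F (e x)) = avg F := by
  simp only [avg]; rw [e.sum_comp]

theorem flipBit_flipBit (i : ι) (x : ι → Bool) : flipBit i (flipBit i x) = x := by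
  ext j; by_cases h : j = i <;> simp [flipBit, h]

/-- flipping as an equivalence -/
def flipEquiv (i : ι) : (ι → Bool) ≃ (ι → Bool) :=
  ⟨flipBit i, flipBit i, flipBit_flipBit i, flipBit_flipBit i⟩

theorem avg_flip (i : ι) (F : (ι → Bool) → ℝ) : avg (fun x => F (flipBit i x)) = avg F :=
  avg_comp_equiv (flipEquiv i) F

/-- precomposition with a permutation of the bits -/
def permEquiv (π : Equiv.Perm ι) : (ι → Bool) ≃ (ι → Bool) :=
  ⟨fun x => x ∘ π, fun x => x ∘ π.symm, fun x => by ext; simp, fun x => by ext; simp⟩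

theorem avg_perm (π : Equiv.Perm ι) (F : (ι → Bool) → ℝ) : avg (fun x => F (x ∘ π)) = avg F :=
  avg_comp_equiv (permEquiv π) F

theorem chi_empty (x : ι → Bool) : chi ∅ x = 1 := prod_empty

theorem chi_flip (S : Finset ι) (i : ι) (x : ι → Bool) :
    chi S (flipBit i x) = (if i ∈ S then -1 else 1) * chi S x := by
  by_cases h : i ∈ S
  · rw [if_pos h, chi, chi, ← mul_prod_erase _ _ h, ← mul_prod_erase _ _ h]
    have e : ∀ j ∈ S.erase i, sgn (flipBit i x j) = sgn (x j) := fun j hj => by
      simp [flipBit, (mem_erase.1 hj).1]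
    rw [prod_congr rfl e]
    simp [flipBit, sgn_not]
  · rw [if_neg h, one_mul]
    refine prod_congr rfl fun j hj => ?_
    have : j ≠ i := fun e => h (e ▸ hj)
    simp [flipBit, this]

theorem avg_chi (S : Finset ι) : avg (chi S) = if S = ∅ then 1 else 0 := by
  split
  · subst S
    rw [show chi (∅ : Finset ι) = fun _ => (1:ℝ) from funext chi_empty, avg_const]
  · obtain ⟨i, hi⟩ := nonempty_iff_ne_empty.2 ‹_›
    have h := avg_flip i (chi S)
    simp only [chi_flip, if_pos hi, avg_const_mul] at h
    linarith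

theorem chi_mul (S T : Finset ι) (x : ι → Bool) :
    chi S x * chi T x = chi (symmDiff S T) x := by
  simp only [chi]
  rw [← prod_union_inter]
  have h : S ∪ T = symmDiff S T ∪ S ∩ T := by
    ext i; simp [mem_symmDiff]; tauto
  have hd : Disjoint (symmDiff S T) (S ∩ T) := by
    rw [disjoint_left]; intro i; simp [mem_symmDiff]; tauto
  rw [h, prod_union hd, mul_assoc, ← prod_mul_distrib]
  simp [sgn_mul_self]

theorem avg_chi_mul (S T : Finset ι) :
    avg (fun x => chi S x * chi T x) = if S = T then 1 else 0 := by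
  simp only [chi_mul]
  rw [avg_chi]
  simp [symmDiff_eq_bot, ← Finset.bot_eq_empty]

theorem avg_sq_poly (s : Finset (Finset ι)) (c : Finset ι → ℝ) :
    avg (fun x => (∑ S ∈ s, c S * chi S x) ^ 2) = ∑ S ∈ s, c S ^ 2 := by
  calc avg (fun x => (∑ S ∈ s, c S * chi S x) ^ 2)
      = avg (fun x => ∑ S ∈ s, ∑ T ∈ s, c S * c T * (chi S x * chi T x)) := by
        congr 1; funext x; rw [sq, sum_mul_sum]
        exact sum_congr rfl fun S _ => sum_congr rfl fun T _ => by ring
    _ = ∑ S ∈ s, c S ^ 2 := by
        rw [avg_sum]; refine sum_congr rfl fun S hS => ?_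
        rw [avg_sum]
        simp [avg_const_mul, avg_chi_mul, hS, sq]

theorem sum_chi_mul (x y : ι → Bool) :
    ∑ S : Finset ι, chi S x * chi S y = if x = y then 2 ^ Fintype.card ι else 0 := by
  have h : ∑ S : Finset ι, chi S x * chi S y = ∏ i, (1 + sgn (x i) * sgn (y i)) := by
    rw [prod_one_add, powerset_univ]
    exact sum_congr rfl fun S _ => prod_mul_distrib.symm
  rw [h]
  split
  · subst y; simp [sgn_mul_self]; norm_num
  · obtain ⟨i, hi⟩ := Function.ne_iff.1 ‹_›
    refine prod_eq_zero (mem_univ i) ?_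
    revert hi; cases x i <;> cases y i <;> simp [sgn]

theorem fourier_inv (f : (ι → Bool) → ℝ) (y : ι → Bool) : ∑ S, coef f S * chi S y = f y := by
  simp only [coef, avg, div_mul_eq_mul_div, sum_mul]
  rw [← sum_div, sum_comm]
  simp_rw [mul_assoc, ← mul_sum, sum_chi_mul]
  simp

theorem parseval (f : (ι → Bool) → ℝ) : ∑ S, coef f S ^ 2 = avg fun x => f x ^ 2 := by
  rw [← avg_sq_poly univ (coef f)]
  simp_rw [fourier_inv]

theorem coef_sub (f g : (ι → Bool) → ℝ) (S : Finset ι) :
    coef (fun x => f x - g x) S = coef f S - coef g S := by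
  simp [coef, sub_mul, avg_sub]

theorem sep_eq (f g : (ι → Bool) → ℝ) : sep f g = ∑ S, (coef f S - coef g S) ^ 2 := by
  simp only [← coef_sub, parseval, sep]

theorem coef_perm (π : Equiv.Perm ι) (f : (ι → Bool) → ℝ) (S : Finset ι) :
    coef (fun x => f (x ∘ π)) S = coef f (S.map π.symm.toEmbedding) := by
  rw [coef, coef, ← avg_perm π (fun y => f y * chi (S.map π.symm.toEmbedding) y)]
  congr 1; funext x
  simp [chi]

theorem coef_flip (i : ι) (f : (ι → Bool) → ℝ) (S : Finset ι) :
    coef (fun x => f (flipBit i x)) S = (if i ∈ S then -1 else 1) * coef f S := by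
  rw [coef, ← avg_flip i, coef]
  simp only [flipBit_flipBit, chi_flip]
  rw [← avg_const_mul]
  congr 1; funext x; ring

theorem infl_eq (f : (ι → Bool) → ℝ) (i : ι) :
    infl f i = 4 * ∑ S, (if i ∈ S then coef f S ^ 2 else 0) := by
  rw [infl, sep_eq, mul_sum]
  refine sum_congr rfl fun S _ => ?_
  rw [coef_flip]; split <;> ring

theorem sum_infl (f : (ι → Bool) → ℝ) :
    ∑ i, infl f i = 4 * ∑ S, (S.card : ℝ) * coef f S ^ 2 := by
  simp only [infl_eq, ← mul_sum]
  rw [sum_comm]
  congr 1
  refine sum_congr rfl fun S _ => ?_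
  simp [sum_ite_mem, nsmul_eq_mul]

theorem infl_nonneg (f : (ι → Bool) → ℝ) (i : ι) : 0 ≤ infl f i :=
  avg_nonneg fun _ => sq_nonneg _

theorem sep_nonneg (f g : (ι → Bool) → ℝ) : 0 ≤ sep f g := avg_nonneg fun _ => sq_nonneg _

theorem cs_avg (u v : (ι → Bool) → ℝ) :
    avg (fun x => u x * v x) ^ 2 ≤ avg (fun x => u x ^ 2) * avg (fun x => v x ^ 2) := by
  simp only [avg, div_pow, div_mul_div_comm, ← sq]
  exact div_le_div_of_nonneg_right (sum_mul_sq_le_sq_mul_sq _ _ _) (by positivity)

/-- The fourth moment bound of Bonami for polynomials of degree at most `k`. -/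
theorem bonami (U : Finset ι) : ∀ (k : ℕ) (c : Finset ι → ℝ),
    (∀ S ⊆ U, k < S.card → c S = 0) →
    avg (fun x => (∑ S ∈ U.powerset, c S * chi S x) ^ 4) ≤
      9 ^ k * avg (fun x => (∑ S ∈ U.powerset, c S * chi S x) ^ 2) ^ 2 := by
  induction U using Finset.induction with
  | empty =>
    intro k c _
    simp only [powerset_empty, sum_singleton, chi_empty, mul_one, avg_const]
    rw [← pow_mul]
    exact le_mul_of_one_le_left (by positivity) (one_le_pow₀ (by norm_num))
  | @insert i U hi ih =>
    intro k c hc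
    set a : (ι → Bool) → ℝ := fun x => ∑ S ∈ U.powerset, c S * chi S x with ha
    set b : (ι → Bool) → ℝ := fun x => ∑ S ∈ U.powerset, c (insert i S) * chi S x with hb
    have hg : ∀ x, ∑ S ∈ (insert i U).powerset, c S * chi S x = a x + sgn (x i) * b x := by
      intro x
      rw [sum_powerset_insert hi, ha, hb]
      simp only [mul_sum]
      congr 1
      refine sum_congr rfl fun S hS => ?_
      rw [chi, prod_insert fun h => hi (mem_powerset.1 hS h)]
      simp only [chi]; ring
    have inv : ∀ d : Finset ι → ℝ, ∀ x,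
        ∑ S ∈ U.powerset, d S * chi S (flipBit i x) = ∑ S ∈ U.powerset, d S * chi S x :=
      fun d x => sum_congr rfl fun S hS => by
        rw [chi_flip, if_neg fun h => hi (mem_powerset.1 hS h), one_mul]
    have odd : ∀ h : (ι → Bool) → ℝ, (∀ x, h (flipBit i x) = h x) →
        avg (fun x => sgn (x i) * h x) = 0 := by
      intro h hh
      have := avg_flip i (fun x => sgn (x i) * h x)
      simp only [hh] at this
      simp only [flipBit, Function.update_self, sgn_not, neg_mul] at this
      rw [show (fun x : ι → Bool => -(sgn (x i) * h x)) =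
        fun x => (-1) * (sgn (x i) * h x) by funext x; ring, avg_const_mul] at this
      linarith
    have ia : ∀ x, a (flipBit i x) = a x := inv c
    have ib : ∀ x, b (flipBit i x) = b x := inv fun S => c (insert i S)
    have h4 : avg (fun x => (a x + sgn (x i) * b x) ^ 4) =
        avg (fun x => a x ^ 4) + 6 * avg (fun x => a x ^ 2 * b x ^ 2) +
          avg (fun x => b x ^ 4) := by
      have e : (fun x => (a x + sgn (x i) * b x) ^ 4) = fun x =>
          a x ^ 4 + 6 * (a x ^ 2 * b x ^ 2) + b x ^ 4 +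
            sgn (x i) * (4 * a x ^ 3 * b x + 4 * a x * b x ^ 3) := by
        funext x
        have hs := sgn_mul_self (x i)
        linear_combination (6 * a x ^ 2 * b x ^ 2 + 4 * a x * b x ^ 3 * sgn (x i) +
          b x ^ 4 * (sgn (x i) * sgn (x i) + 1)) * hs
      rw [e, avg_add, avg_add, avg_add, avg_const_mul,
        odd _ fun x => by rw [ia, ib], add_zero]
    have h2 : avg (fun x => (a x + sgn (x i) * b x) ^ 2) =
        avg (fun x => a x ^ 2) + avg (fun x => b x ^ 2) := by
      have e : (fun x => (a x + sgn (x i) * b x) ^ 2) = fun x =>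
          a x ^ 2 + b x ^ 2 + sgn (x i) * (2 * a x * b x) := by
        funext x
        linear_combination (b x ^ 2) * sgn_mul_self (x i)
      rw [e, avg_add, avg_add, odd _ fun x => by rw [ia, ib], add_zero]
    simp only [hg]
    rw [h4, h2]
    set A := avg (fun x => a x ^ 2)
    set B := avg (fun x => b x ^ 2)
    have hA : 0 ≤ A := avg_nonneg fun _ => sq_nonneg _
    have hB : 0 ≤ B := avg_nonneg fun _ => sq_nonneg _
    have ha4 : avg (fun x => a x ^ 4) ≤ 9 ^ k * A ^ 2 :=
      ih k c fun S hS h => hc S (hS.trans (subset_insert _ _)) h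
    cases k with
    | zero =>
      have hb0 : ∀ x, b x = 0 := fun x => sum_eq_zero fun S hS => by
        rw [hc _ (insert_subset_insert _ (mem_powerset.1 hS))
          (card_pos.2 (insert_nonempty _ _)), zero_mul]
      have hz : avg (fun _ : ι → Bool => (0:ℝ)) = 0 := avg_const 0
      have e1 : B = 0 := by simp [B, hb0, hz]
      simp [hb0, hz, e1] at ha4 ⊢
      linarith
    | succ k =>
      have hb4 : avg (fun x => b x ^ 4) ≤ 9 ^ k * B ^ 2 := by
        refine ih k _ fun S hS h => hc _ (insert_subset_insert _ hS) ?_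
        rw [card_insert_of_notMem fun hh => hi (hS hh)]; omega
      have hab : avg (fun x => a x ^ 2 * b x ^ 2) ≤ 3 * 9 ^ k * (A * B) := by
        refine (sq_le_sq₀ (avg_nonneg fun x => by positivity) (by positivity)).1 ?_
        refine (cs_avg _ _).trans ?_
        simp only [← pow_mul, show 2 * 2 = 4 from rfl]
        refine (mul_le_mul ha4 hb4 (avg_nonneg fun x => by positivity) (by positivity)).trans
          (le_of_eq ?_)
        ring
      have h9 : (0:ℝ) ≤ 9 ^ k := by positivity
      rw [pow_succ] at ha4 ⊢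
      nlinarith [mul_nonneg h9 (sq_nonneg B)]

/-- Level inequality: a function with values in `0, 1, -1` has little low degree weight. -/
theorem level_bound (D : (ι → Bool) → ℝ) (hD : ∀ x, D x ^ 4 = D x ^ 2) (k : ℕ) :
    (∑ S ∈ univ.filter (fun S : Finset ι => S.card ≤ k), coef D S ^ 2) ^ 2 ≤
      9 ^ k * (avg fun x => D x ^ 2) ^ 3 := by
  set c : Finset ι → ℝ := fun S => if S.card ≤ k then coef D S else 0
  set g : (ι → Bool) → ℝ := fun x => ∑ S ∈ (univ : Finset ι).powerset, c S * chi S x with hg
  set Q := ∑ S ∈ univ.filter (fun S : Finset ι => S.card ≤ k), coef D S ^ 2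
  set p := avg fun x => D x ^ 2
  have hgg : avg (fun x => g x ^ 2) = Q := by
    rw [hg, powerset_univ, avg_sq_poly]
    simp only [Q, sum_filter]
    refine sum_congr rfl fun S _ => ?_
    by_cases h : S.card ≤ k <;> simp [c, h]
  have hgD : avg (fun x => g x * D x) = Q := by
    simp only [hg, powerset_univ, sum_mul, avg_sum]
    simp only [Q, sum_filter]
    refine sum_congr rfl fun S _ => ?_
    by_cases h : S.card ≤ k
    · simp only [c, if_pos h, sq, mul_assoc, avg_const_mul]
      congr 1; simp only [coef, mul_comm]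
    · simp [c, h, avg_const]
  have hQ : 0 ≤ Q := sum_nonneg fun _ _ => sq_nonneg _
  have hp : 0 ≤ p := avg_nonneg fun _ => sq_nonneg _
  set M := avg fun x => g x ^ 2 * D x ^ 2
  have hM : 0 ≤ M := avg_nonneg fun _ => by positivity
  have h4 : avg (fun x => g x ^ 4) ≤ 9 ^ k * Q ^ 2 := by
    rw [← hgg]
    exact bonami univ k c fun S _ h => if_neg (not_le.2 h)
  have c1 : Q ^ 2 ≤ M * p := by
    have := cs_avg (fun x => g x * D x ^ 1) (fun x => D x ^ 2)
    have e2 : (fun x => g x * D x) = fun x => g x * D x * D x ^ 2 := by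
      funext x
      have := hD x
      rcases eq_or_ne (D x) 0 with h | h
      · simp [h]
      · have : D x ^ 2 = 1 := mul_left_cancel₀ (pow_ne_zero 2 h) (by linear_combination this)
        simp [this]
    simp only [← e2, hgD, pow_one, mul_pow, ← pow_mul, show 2 * 2 = 4 from rfl, hD] at this
    exact this
  have c2 : M ^ 2 ≤ 9 ^ k * Q ^ 2 * p := by
    have := cs_avg (fun x => g x ^ 2) (fun x => D x ^ 2)
    simp only [← pow_mul, show 2 * 2 = 4 from rfl, hD] at this
    exact this.trans (mul_le_mul_of_nonneg_right h4 hp)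
  rcases eq_or_lt_of_le hQ with h | h
  · rw [← h]; simp; positivity
  · have : Q ^ 2 * Q ^ 2 ≤ Q ^ 2 * (9 ^ k * p ^ 3) := by
      calc Q ^ 2 * Q ^ 2 ≤ M * p * (M * p) := mul_le_mul c1 c1 (sq_nonneg _) (by positivity)
        _ = M ^ 2 * p ^ 2 := by ring
        _ ≤ 9 ^ k * Q ^ 2 * p * p ^ 2 := mul_le_mul_of_nonneg_right c2 (sq_nonneg _)
        _ = Q ^ 2 * (9 ^ k * p ^ 3) := by ring
    exact le_of_mul_le_mul_left this (pow_pos h 2)

theorem avg_prod_eq {m : ℕ} (a b : Fin m → ι) (ha : Function.Injective a)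
    (hb : Function.Injective b) (hab : ∀ i j, a i ≠ b j) :
    avg (fun x => ∏ i, if x (a i) = x (b i) then (1:ℝ) else 0) = (1 / 2) ^ m := by
  have e : ∀ x : ι → Bool, (∏ i, if x (a i) = x (b i) then (1:ℝ) else 0) =
      (1 / 2) ^ m * ∑ U ∈ (univ : Finset (Fin m)).powerset, chi (U.image a ∪ U.image b) x := by
    intro x
    have hd : ∀ U : Finset (Fin m), Disjoint (U.image a) (U.image b) := fun U => by
      rw [disjoint_left]; rintro y hy hy'
      obtain ⟨i, -, rfl⟩ := mem_image.1 hy
      obtain ⟨j, -, hj⟩ := mem_image.1 hy'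
      exact hab i j hj.symm
    simp only [chi, prod_union (hd _), prod_image ha.injOn, prod_image hb.injOn,
      ← prod_mul_distrib]
    rw [← prod_one_add, show ((1:ℝ) / 2) ^ m = ∏ _i : Fin m, (1:ℝ) / 2 by simp,
      ← prod_mul_distrib]
    refine prod_congr rfl fun i _ => ?_
    cases x (a i) <;> cases x (b i) <;> norm_num [sgn]
  simp only [e, avg_const_mul, avg_sum, avg_chi]
  rw [sum_eq_single (∅ : Finset (Fin m)) ?_ (by simp)]
  · simp
  · intro U _ hU
    rw [if_neg]
    exact fun h => hU (by simpa using (union_eq_empty.1 h).1)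

end Vale.Agent.P238
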