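import Vale.Agent.P238.Scale

/-!
# P238: the Poincaré inequality for maps into `ℓ₁`

The multiscale inequality is linear in the kernel `|f x - f y|` of a cut, hence holds for every
kernel which is a sum of kernels `|u x - u y|`.
-/

open Finset

namespace Vale.Agent.P238

/-- kernels on words -/
abbrev Ker (N : ℕ) := (Fin N → Bool) → (Fin N → Bool) → ℝ

variable {N : ℕ}

/-- mean of a kernel along a map of words -/
noncomputable def meanAlong (φ : (Fin N → Bool) → Fin N → Bool) : Ker N →ₗ[ℝ] ℝ where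
  toFun d := avg fun x => d (φ x) x
  map_add' d d' := avg_add _ _
  map_smul' c d := avg_const_mul _ _

/-- mean of a kernel along a rotation -/
noncomputable def rotK (lo len s : ℕ) : Ker N →ₗ[ℝ] ℝ :=
  meanAlong fun x => x ∘ rot lo len s

/-- mean of a kernel along a flip -/
noncomputable def flipK (i : Fin N) : Ker N →ₗ[ℝ] ℝ := meanAlong (flipBit i)

/-- rotations by a quarter of intervals, over all scales -/
noncomputable def farK (q B J : ℕ) : Ker N →ₗ[ℝ] ℝ :=
  (1 / (B:ℝ)) • ∑ j ∈ range J, ∑ p ∈ range ((B * B) ^ (J - 1 - j)),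
    ∑ m ∈ range (B * B - 4 * B),
      rotK ((p * (B * B) + m) * (q * (B * B) ^ j)) (4 * B * (q * (B * B) ^ j))
        (B * (q * (B * B) ^ j))

/-- slow rotations of parents, over all scales -/
noncomputable def parK (q B J : ℕ) : Ker N →ₗ[ℝ] ℝ :=
  ∑ j ∈ range J, ∑ p ∈ range ((B * B) ^ (J - 1 - j)),
    (rotK (p * (B * B) * (q * (B * B) ^ j)) (B * B * (q * (B * B) ^ j))
        (B * (q * (B * B) ^ j)) +
      rotK (p * (B * B) * (q * (B * B) ^ j)) (B * B * (q * (B * B) ^ j))
        ((B * B - 3 * B) * (q * (B * B) ^ j)))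

/-- short rotations of bottom cells -/
noncomputable def cellK (q P m : ℕ) : Ker N →ₗ[ℝ] ℝ :=
  ∑ I ∈ range P, ∑ s : Fin m, rotK (I * q) q s

/-- far pairs minus close pairs -/
noncomputable def gapK (q B J m k : ℕ) (p0 η : ℝ) : Ker N →ₗ[ℝ] ℝ :=
  farK q B J - ((4:ℝ) • parK q B J + (8 / (k:ℝ) + 32 * (η + 2 / (m * p0))) • ∑ i, flipK i +
    (32 * (8 / (m * p0))) • cellK q ((B * B) ^ J) m)

/-- the kernel of a function -/
def sqK (f : (Fin N → Bool) → ℝ) : Ker N := fun x y => (f x - f y) ^ 2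

theorem rotK_sqK (f : (Fin N → Bool) → ℝ) (lo len s : ℕ) :
    rotK lo len s (sqK f) = sep (fun x => f (x ∘ rot lo len s)) f := rfl

theorem flipK_sqK (f : (Fin N → Bool) → ℝ) (i : Fin N) : flipK i (sqK f) = infl f i := by
  show avg _ = avg _
  congr 1; funext x
  simp only [sqK]; ring

theorem sum_cells {q P : ℕ} (hq : 0 < q) (hN : P * q = N) (g : Fin N → ℝ) :
    ∑ I : Fin P, ∑ t, g (cellEmb (I := I.1) (q := q) (hN ▸ Nat.mul_le_mul_right q I.2) t) =
      ∑ i, g i := by
  have hmaps : ∀ i ∈ (univ : Finset (Fin N)), i.val / q ∈ range P := fun i _ =>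
    mem_range.2 ((Nat.div_lt_iff_lt_mul hq).2 (by rw [hN]; exact i.2))
  rw [← sum_fiberwise_of_maps_to hmaps, ← Fin.sum_univ_eq_sum_range
    (fun I => ∑ i ∈ univ.filter (fun i : Fin N => i.val / q = I), g i) P]
  refine sum_congr rfl fun I _ => ?_
  rw [← map_pre_cell hq (hN ▸ Nat.mul_le_mul_right q I.2), sum_map]
  simp [pre]

theorem farK_le {q B J : ℕ} (hq : 0 < q) (hB : 8 ≤ B) (hN : (B * B) ^ J * q = N)
    (f : (Fin N → Bool) → ℝ) : farK q B J (sqK f) ≤ 4 * parK q B J (sqK f) +
      32 * ∑ S : Finset (Fin N), coef f S ^ 2 * (occ q S).card := by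
  set M := B * B with hM
  have hM4 : 4 * B ≤ M := Nat.mul_le_mul_right B (by omega)
  have hB0 : (0:ℝ) < B := by exact_mod_cast (by omega : 0 < B)
  have hpow : ∀ j < J, M ^ (J - 1 - j) * M * (q * M ^ j) = N := by
    intro j hj
    rw [← hN, ← pow_succ, ← mul_assoc, mul_right_comm, ← pow_add]
    congr 2; omega
  simp only [farK, parK, LinearMap.smul_apply, LinearMap.sum_apply, LinearMap.add_apply,
    rotK_sqK, smul_eq_mul, ← hM]
  rw [one_div, inv_mul_le_iff₀ hB0]
  have hj : ∀ j ∈ range J, ∑ p ∈ range (M ^ (J - 1 - j)), ∑ m ∈ range (M - 4 * B),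
      sep (fun x => f (x ∘ rot ((p * M + m) * (q * M ^ j)) (4 * B * (q * M ^ j))
        (B * (q * M ^ j)))) f ≤
      4 * (B:ℝ) * ∑ p ∈ range (M ^ (J - 1 - j)),
        (sep (fun x => f (x ∘ rot (p * M * (q * M ^ j)) (M * (q * M ^ j))
            (B * (q * M ^ j)))) f +
          sep (fun x => f (x ∘ rot (p * M * (q * M ^ j)) (M * (q * M ^ j))
            ((M - 3 * B) * (q * M ^ j)))) f) +
        32 * (B:ℝ) * ∑ S : Finset (Fin N), coef f S ^ 2 *
          (((occ (q * M ^ j) S).card : ℝ) - (occ (q * M ^ (j + 1)) S).card) := by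
    intro j hj
    have hb : 0 < q * M ^ j := Nat.mul_pos hq (pow_pos (by omega) j)
    refine (sum_le_sum fun p hp => parent_bound hb (by omega) hM4 ?_ f).trans (le_of_eq ?_)
    · rw [← hpow j (mem_range.1 hj)]
      exact Nat.mul_le_mul_right _ (Nat.mul_le_mul_right _ (mem_range.1 hp))
    · rw [sum_add_distrib, ← mul_sum, ← mul_sum, sum_comm]
      congr 2
      refine sum_congr rfl fun S _ => ?_
      rw [← mul_sum, kids_telescope hb (hpow j (mem_range.1 hj)) S,
        show q * M ^ j * M = q * M ^ (j + 1) by ring]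
  refine (sum_le_sum hj).trans ?_
  rw [sum_add_distrib, ← mul_sum, ← mul_sum, sum_comm (s := range J) (t := univ)]
  have ht : ∑ S : Finset (Fin N), ∑ j ∈ range J, coef f S ^ 2 *
      (((occ (q * M ^ j) S).card : ℝ) - (occ (q * M ^ (j + 1)) S).card) ≤
      ∑ S : Finset (Fin N), coef f S ^ 2 * (occ q S).card := by
    refine sum_le_sum fun S _ => ?_
    rw [← mul_sum, sum_range_sub' (fun j => ((occ (q * M ^ j) S).card : ℝ)) J]
    simp only [pow_zero, mul_one]
    exact mul_le_mul_of_nonneg_left (sub_le_self _ (by positivity)) (sq_nonneg _)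
  nlinarith [mul_le_mul_of_nonneg_left ht (show (0:ℝ) ≤ 32 * B by positivity)]

theorem lowWeight_sum_le {q P m k : ℕ} {p0 η : ℝ} (hq : 0 < q) (hm : 0 < m) (hmq : m ≤ q)
    (hN : P * q = N) (hp0 : 0 < p0) (hη : 0 ≤ η) (hk : (9:ℝ) ^ k * p0 ≤ η ^ 2)
    {f : (Fin N → Bool) → ℝ} (hf : IsCut f) :
    ∑ I ∈ range P, lowWeight q k I f ≤ (η + 2 / (m * p0)) * ∑ i, infl f i +
      8 / (m * p0) * cellK q P m (sqK f) := by
  have hI : ∀ I : Fin P, (I.1 + 1) * q ≤ N := fun I => hN ▸ Nat.mul_le_mul_right q I.2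
  simp only [cellK, LinearMap.sum_apply, rotK_sqK]
  rw [← Fin.sum_univ_eq_sum_range (fun I => lowWeight q k I f) P,
    ← Fin.sum_univ_eq_sum_range (fun I => ∑ s : Fin m,
      sep (fun x => f (x ∘ rot (I * q) q s)) f) P]
  refine (sum_le_sum fun I _ =>
    lowWeight_le hq hm hmq (hI I) p0 η hp0 hη hk hf).trans (le_of_eq ?_)
  rw [sum_add_distrib, ← mul_sum, ← mul_sum, sum_cells hq hN (infl f)]

theorem occ_weight_le {q P k : ℕ} (hq : 0 < q) (hN : P * q = N) (hk0 : 0 < k)
    (f : (Fin N → Bool) → ℝ) :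
    ∑ S : Finset (Fin N), coef f S ^ 2 * (occ q S).card ≤
      1 / (4 * k) * ∑ i, infl f i + ∑ I ∈ range P, lowWeight q k I f := by
  have hk' : (0:ℝ) < k := by exact_mod_cast hk0
  rw [sum_infl]
  simp only [lowWeight]
  rw [sum_comm (s := range P), mul_sum, mul_sum, ← sum_add_distrib]
  refine sum_le_sum fun S _ => ?_
  have e : ∑ I ∈ range P, (if ((S.filter fun i => i.val / q = I).Nonempty ∧
        (S.filter fun i => i.val / q = I).card ≤ k) then coef f S ^ 2 else 0) =
      (∑ I ∈ range P, if ((S.filter fun i => i.val / q = I).Nonempty ∧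
        (S.filter fun i => i.val / q = I).card ≤ k) then (1:ℝ) else 0) * coef f S ^ 2 := by
    rw [sum_mul]
    exact sum_congr rfl fun I _ => (by rw [ite_mul, one_mul, zero_mul])
  rw [e]
  set x := ∑ I ∈ range P, if ((S.filter fun i => i.val / q = I).Nonempty ∧
        (S.filter fun i => i.val / q = I).card ≤ k) then (1:ℝ) else 0
  have h : (k:ℝ) * (occ q S).card ≤ S.card + k * x := occ_le hq hN k S
  have h' : ((occ q S).card : ℝ) ≤ S.card / k + x := by
    rw [div_add' _ _ _ hk'.ne', le_div_iff₀ hk']; linarith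
  calc coef f S ^ 2 * (occ q S).card ≤ coef f S ^ 2 * (S.card / k + x) :=
        mul_le_mul_of_nonneg_left h' (sq_nonneg _)
    _ = _ := by field_simp

/-- The multiscale inequality for a cut. -/
theorem gap_cut {q B J m k : ℕ} {p0 η : ℝ} (hq : 0 < q) (hB : 8 ≤ B) (hm : 0 < m) (hmq : m ≤ q)
    (hk0 : 0 < k) (hN : (B * B) ^ J * q = N) (hp0 : 0 < p0) (hη : 0 ≤ η)
    (hk : (9:ℝ) ^ k * p0 ≤ η ^ 2) {f : (Fin N → Bool) → ℝ} (hf : IsCut f) :
    gapK q B J m k p0 η (sqK f) ≤ 0 := by
  have h1 := farK_le hq hB hN f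
  have h2 := occ_weight_le hq hN hk0 f
  have h3 := lowWeight_sum_le hq hm hmq hN hp0 hη hk hf
  simp only [gapK, LinearMap.sub_apply, LinearMap.add_apply, LinearMap.smul_apply,
    LinearMap.sum_apply, smul_eq_mul, flipK_sqK]
  rw [show 8 / (k:ℝ) = 32 * (1 / (4 * k)) by ring]
  linarith

/-- Layer cake: an inequality linear in the kernel passes from cuts to real functions. -/
theorem ker_layer {X : Type*} [Fintype X] [DecidableEq X]
    (T : (X → X → ℝ) →ₗ[ℝ] ℝ)
    (h : ∀ f : X → ℝ, (∀ x, f x = 0 ∨ f x = 1) → T (fun x y => (f x - f y) ^ 2) ≤ 0)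
    (u : X → ℝ) : T (fun x y => |u x - u y|) ≤ 0 := by
  induction hn : (univ.image u).card using Nat.strong_induction_on generalizing u with
  | _ n ih =>
  by_cases hc : ∀ x y, u x = u y
  · have : (fun x y => |u x - u y|) = (0 : X → X → ℝ) := by
      funext x y; simp [hc x y]
    rw [this, map_zero]
  push Not at hc
  obtain ⟨x0, y0, hxy⟩ := hc
  have hne : (univ.image u).Nonempty := ⟨u x0, mem_image_of_mem _ (mem_univ _)⟩
  set v := (univ.image u).max' hne with hv
  have hle : ∀ x, u x ≤ v := fun x => le_max' _ _ (mem_image_of_mem _ (mem_univ _))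
  have hne' : ((univ.image u).erase v).Nonempty := by
    by_cases h0 : u x0 = v
    · exact ⟨u y0, mem_erase.2 ⟨fun e => hxy (h0.trans e.symm),
        mem_image_of_mem _ (mem_univ _)⟩⟩
    · exact ⟨u x0, mem_erase.2 ⟨h0, mem_image_of_mem _ (mem_univ _)⟩⟩
  set w := ((univ.image u).erase v).max' hne' with hw
  have hwmem := max'_mem _ hne'
  have hwv : w < v := lt_of_le_of_ne (le_max' _ _ (mem_erase.1 hwmem).2) (mem_erase.1 hwmem).1
  have hlow : ∀ x, u x ≠ v → u x ≤ w := fun x hx =>
    le_max' _ _ (mem_erase.2 ⟨hx, mem_image_of_mem _ (mem_univ _)⟩)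
  set u' : X → ℝ := fun x => min (u x) w with hu'
  set c : X → ℝ := fun x => if u x = v then 1 else 0 with hcd
  have hsplit : (fun x y => |u x - u y|) =
      (fun x y => |u' x - u' y|) + (v - w) • (fun x y => (c x - c y) ^ 2) := by
    funext x y
    simp only [Pi.add_apply, Pi.smul_apply, smul_eq_mul, hu', hcd]
    by_cases hx : u x = v <;> by_cases hy : u y = v
    · simp [hx, hy]
    · have := hlow y hy
      rw [if_pos hx, if_neg hy, hx, min_eq_right hwv.le, min_eq_left this,
        abs_of_nonneg (by linarith), abs_of_nonneg (by linarith)]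
      ring
    · have := hlow x hx
      rw [if_neg hx, if_pos hy, hy, min_eq_right hwv.le, min_eq_left this,
        abs_of_nonpos (by linarith), abs_of_nonpos (by linarith)]
      ring
    · rw [if_neg hx, if_neg hy, min_eq_left (hlow x hx), min_eq_left (hlow y hy)]
      ring
  have hcard : (univ.image u').card < n := by
    rw [← hn]
    refine card_lt_card (Finset.ssubset_iff_subset_ne.2 ⟨?_, ?_⟩)
    · intro a ha
      obtain ⟨x, -, rfl⟩ := Finset.mem_image.1 ha
      simp only [hu']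
      rcases le_total (u x) w with h1 | h1
      · rw [min_eq_left h1]; exact mem_image_of_mem _ (mem_univ _)
      · rw [min_eq_right h1]; exact (mem_erase.1 hwmem).2
    · intro e
      have := max'_mem _ hne
      rw [← hv, ← e] at this
      obtain ⟨x, -, hx⟩ := Finset.mem_image.1 this
      have : u' x ≤ w := min_le_right _ _
      linarith
  rw [hsplit, map_add, map_smul, smul_eq_mul]
  have h1 := ih _ hcard u' rfl
  have h2 := h c fun x => by by_cases e : u x = v <;> simp [hcd, e]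
  nlinarith

/-- An inequality linear in the kernel passes to sums of kernels of real functions. -/
theorem ker_sum {X : Type*} [Fintype X] (T : (X → X → ℝ) →ₗ[ℝ] ℝ)
    (h : ∀ u : X → ℝ, T (fun x y => |u x - u y|) ≤ 0) {κ : Type*} (u : κ → X → ℝ)
    (d : X → X → ℝ) (hd : ∀ x y, HasSum (fun c => |u c x - u c y|) (d x y)) : T d ≤ 0 := by
  have hs : HasSum (fun c => fun x y => |u c x - u c y|) d :=
    Pi.hasSum.2 fun x => Pi.hasSum.2 fun y => hd x y
  have := hs.map T T.continuous_of_finiteDimensional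
  exact hasSum_le (fun c => h (u c)) this hasSum_zero

end Vale.Agent.P238
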