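import Vale.Agent.P238.Fourier

/-!
# P238: low degree Fourier weight inside one cell

A Boolean function which is nearly invariant under a family of permutations of a cell, moving
every bit to many different places, has little Fourier weight on sets meeting the cell in few
points, compared with its influences in the cell.
-/

open Finset

namespace Vale.Agent.P238

section Cube

variable {ι : Type*} [Fintype ι] [DecidableEq ι]

/-- values in `0, 1` -/
def IsCut (f : (ι → Bool) → ℝ) : Prop := ∀ x, f x = 0 ∨ f x = 1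

theorem infl_comp_perm (f : (ι → Bool) → ℝ) (π : Equiv.Perm ι) (i : ι) :
    infl (fun x => f (x ∘ π)) i = infl f (π.symm i) := by
  have e : ∀ x : ι → Bool, flipBit i x ∘ π = flipBit (π.symm i) (x ∘ π) := by
    intro x; ext j
    by_cases h : j = π.symm i
    · subst h; simp [flipBit]
    · have : π j ≠ i := fun h' => h (by simp [← h'])
      simp [flipBit, h, this]
  simp only [infl, sep, e]
  exact avg_perm π fun y => (f y - f (flipBit (π.symm i) y)) ^ 2

theorem infl_le_of_sep (f g : (ι → Bool) → ℝ) (i : ι) :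
    infl f i ≤ 2 * infl g i + 8 * sep f g := by
  have h : ∀ x, (f x - f (flipBit i x)) ^ 2 ≤ 2 * (g x - g (flipBit i x)) ^ 2 +
      4 * (f x - g x) ^ 2 + 4 * (f (flipBit i x) - g (flipBit i x)) ^ 2 := fun x => by
    nlinarith [sq_nonneg (f x - g x + (f (flipBit i x) - g (flipBit i x))),
      sq_nonneg (g x - g (flipBit i x) - (f x - g x - (f (flipBit i x) - g (flipBit i x))))]
  refine (avg_mono h).trans ?_
  rw [avg_add, avg_add, avg_const_mul, avg_const_mul, avg_const_mul,
    avg_flip i fun y => (f y - g y) ^ 2]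
  simp only [infl, sep]; linarith

/-- nonempty sets with at most `k` elements -/
def lowSets (k : ℕ) : Finset (Finset ι) :=
  univ.filter fun S => S.Nonempty ∧ S.card ≤ k

/-- Low degree weight of a cut is small against influences and the cost of the permutations. -/
theorem cube_low_weight {m : ℕ} (π : Fin m → Equiv.Perm ι)
    (hπ : ∀ i, Function.Injective fun s => (π s).symm i) (k : ℕ) (p0 η : ℝ) (hp0 : 0 < p0)
    (hm : 0 < m) (hη : 0 ≤ η) (hk : (9:ℝ) ^ k * p0 ≤ η ^ 2) {f : (ι → Bool) → ℝ}
    (hf : IsCut f) :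
    ∑ S ∈ lowSets k, coef f S ^ 2 ≤ (η + 2 / (m * p0)) * ∑ i, infl f i +
      8 / (m * p0) * ∑ s, sep (fun x => f (x ∘ π s)) f := by
  have hI : 0 ≤ ∑ i, infl f i := sum_nonneg fun i _ => infl_nonneg f i
  have hS : 0 ≤ ∑ s, sep (fun x => f (x ∘ π s)) f := sum_nonneg fun s _ => sep_nonneg _ _
  have hmp : 0 < (m:ℝ) * p0 := by positivity
  by_cases hmax : ∃ i, p0 < infl f i
  · obtain ⟨i, hi⟩ := hmax
    have h1 : ∑ S ∈ lowSets k, coef f S ^ 2 ≤ 1 := by
      calc ∑ S ∈ lowSets k, coef f S ^ 2 ≤ ∑ S, coef f S ^ 2 :=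
            sum_le_univ_sum_of_nonneg fun S => sq_nonneg _
        _ = avg (fun x => f x ^ 2) := parseval f
        _ ≤ avg fun _ => (1:ℝ) := avg_mono fun x => by rcases hf x with h | h <;> simp [h]
        _ = 1 := avg_const 1
    have h2 : ∀ s, p0 ≤ 2 * infl f ((π s).symm i) + 8 * sep (fun x => f (x ∘ π s)) f := by
      intro s
      have := infl_le_of_sep f (fun x => f (x ∘ π s)) i
      rw [infl_comp_perm] at this
      have hc : sep f (fun x => f (x ∘ π s)) = sep (fun x => f (x ∘ π s)) f := by
        simp only [sep]; congr 1; funext x; ring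
      linarith
    have h3 : (m:ℝ) * p0 ≤ 2 * ∑ j, infl f j + 8 * ∑ s, sep (fun x => f (x ∘ π s)) f := by
      have h4 := sum_le_sum (s := univ) fun s _ => h2 s
      simp only [sum_const, card_univ, Fintype.card_fin, nsmul_eq_mul, sum_add_distrib,
        ← mul_sum] at h4
      refine h4.trans (add_le_add (mul_le_mul_of_nonneg_left ?_ two_pos.le) le_rfl)
      rw [← sum_image (f := fun j => infl f j) fun a _ b _ h => hπ i h]
      exact sum_le_univ_sum_of_nonneg fun j => infl_nonneg f j
    refine h1.trans ?_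
    have h5 : 1 ≤ (2 * ∑ j, infl f j + 8 * ∑ s, sep (fun x => f (x ∘ π s)) f) / (m * p0) :=
      (one_le_div hmp).2 h3
    rw [add_div, mul_div_right_comm, mul_div_right_comm] at h5
    nlinarith [mul_nonneg hη hI]
  · push Not at hmax
    have key : ∀ i, ∑ S ∈ lowSets k, (if i ∈ S then 4 * coef f S ^ 2 else 0) ≤ η * infl f i := by
      intro i
      set D := fun x => f x - f (flipBit i x)
      have hD : ∀ x, D x ^ 4 = D x ^ 2 := fun x => by
        rcases hf x with h | h <;> rcases hf (flipBit i x) with h' | h' <;> norm_num [D, h, h']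
      have hc : ∀ S, coef D S ^ 2 = if i ∈ S then 4 * coef f S ^ 2 else 0 := fun S => by
        simp only [D, coef_sub, coef_flip]; split <;> ring
      have hQ := level_bound D hD k
      have hp : (avg fun x => D x ^ 2) = infl f i := rfl
      rw [hp] at hQ
      have h0 := infl_nonneg f i
      set Q := ∑ S ∈ univ.filter (fun S : Finset ι => S.card ≤ k), coef D S ^ 2
      have hQ0 : 0 ≤ Q := sum_nonneg fun _ _ => sq_nonneg _
      have : Q ^ 2 ≤ (η * infl f i) ^ 2 := hQ.trans (by
        rw [mul_pow]
        calc (9:ℝ) ^ k * infl f i ^ 3 = 9 ^ k * infl f i * infl f i ^ 2 := by ring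
          _ ≤ 9 ^ k * p0 * infl f i ^ 2 := by gcongr; exact hmax i
          _ ≤ η ^ 2 * infl f i ^ 2 := by gcongr)
      refine le_trans ?_ ((sq_le_sq₀ hQ0 (by positivity)).1 this)
      simp only [← hc]
      exact sum_le_sum_of_subset_of_nonneg (fun S hS => by
        simp only [lowSets, mem_filter] at hS ⊢; exact ⟨mem_univ _, hS.2.2⟩)
        fun _ _ _ => sq_nonneg _
    have h1 : ∑ S ∈ lowSets k, coef f S ^ 2 ≤ η * ∑ i, infl f i := by
      rw [mul_sum]
      refine le_trans ?_ (sum_le_sum fun i _ => key i)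
      rw [sum_comm]
      refine sum_le_sum fun S hS => ?_
      obtain ⟨i, hi⟩ := (mem_filter.1 hS).2.1
      refine le_trans ?_ (single_le_sum (f := fun j => if j ∈ S then 4 * coef f S ^ 2 else 0)
        (fun j _ => by split <;> positivity) (mem_univ i))
      simp only [if_pos hi]; linarith [sq_nonneg (coef f S)]
    have : 0 ≤ 2 / ((m:ℝ) * p0) * ∑ i, infl f i := by positivity
    have : 0 ≤ 8 / ((m:ℝ) * p0) * ∑ s, sep (fun x => f (x ∘ π s)) f := by positivity
    nlinarith

end Cube

section Fibre

variable {ι : Type*} [Fintype ι] [DecidableEq ι] {κ : Type*} [Fintype κ] [DecidableEq κ]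
  (e : κ ↪ ι)

/-- overwrite the cell -/
noncomputable def put (z : κ → Bool) (x : ι → Bool) : ι → Bool := Function.extend e z x

/-- the restriction of a function to a fibre of the cell -/
noncomputable def fib (f : (ι → Bool) → ℝ) (x : ι → Bool) : (κ → Bool) → ℝ :=
  fun z => f (put e z x)

/-- the trace of a set on the cell -/
def pre (S : Finset ι) : Finset κ := univ.filter fun t => e t ∈ S

/-- the part of a set outside the cell -/
def out (S : Finset ι) : Finset ι := S \ univ.map e

theorem put_apply (z : κ → Bool) (x : ι → Bool) (t : κ) : put e z x (e t) = z t :=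
  e.injective.extend_apply z x t

theorem put_other (z : κ → Bool) (x : ι → Bool) {j : ι} (h : ∀ t, e t ≠ j) :
    put e z x j = x j :=
  Function.extend_apply' z x j fun ⟨t, ht⟩ => h t ht

theorem chi_put (S : Finset ι) (z : κ → Bool) (x : ι → Bool) :
    chi S (put e z x) = chi (pre e S) z * chi (out e S) x := by
  have hu : S = (pre e S).map e ∪ out e S := by
    ext j
    simp only [pre, out, mem_union, Finset.mem_map, mem_filter, mem_univ, true_and, mem_sdiff]
    constructor
    · intro hj
      by_cases h : ∃ t, e t = j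
      · obtain ⟨t, rfl⟩ := h; exact .inl ⟨t, hj, rfl⟩
      · exact .inr ⟨hj, h⟩
    · rintro (⟨t, ht, rfl⟩ | h)
      exacts [ht, h.1]
  have hd : Disjoint ((pre e S).map e) (out e S) := by
    rw [disjoint_left]; intro j hj hj'
    exact (mem_sdiff.1 hj').2 (map_subset_map.2 (subset_univ _) hj)
  conv_lhs => rw [chi, hu, prod_union hd, prod_map]
  congr 1
  · exact prod_congr rfl fun t _ => by rw [put_apply]
  · refine prod_congr rfl fun j hj => ?_
    rw [put_other e z x fun t ht => (mem_sdiff.1 hj).2 (by simp [← ht])]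

theorem pre_out_inj {S S' : Finset ι} (h : pre e S = pre e S') (h' : out e S = out e S') :
    S = S' := by
  ext j
  by_cases hj : ∃ t, e t = j
  · obtain ⟨t, rfl⟩ := hj
    simpa [pre] using congrArg (fun A : Finset κ => t ∈ A) h
  · simpa [out, hj] using congrArg (fun A : Finset ι => j ∈ A) h'

theorem coef_fib (f : (ι → Bool) → ℝ) (x : ι → Bool) (T : Finset κ) :
    coef (fib e f x) T =
      ∑ S ∈ univ.filter (fun S => pre e S = T), coef f S * chi (out e S) x := by
  have : fib e f x = fun z => ∑ S, coef f S * chi (out e S) x * chi (pre e S) z := by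
    funext z
    rw [fib, ← fourier_inv f (put e z x)]
    exact sum_congr rfl fun S _ => by rw [chi_put]; ring
  rw [coef, this]
  simp only [sum_mul, avg_sum, mul_assoc, avg_const_mul, avg_chi_mul]
  rw [sum_filter]
  exact sum_congr rfl fun S _ => by split <;> simp

theorem avg_fib_weight (f : (ι → Bool) → ℝ) (P : Finset (Finset κ)) :
    avg (fun x => ∑ T ∈ P, coef (fib e f x) T ^ 2) =
      ∑ S ∈ univ.filter (fun S => pre e S ∈ P), coef f S ^ 2 := by
  rw [avg_sum]
  simp only [coef_fib]
  rw [← sum_fiberwise_of_maps_to (g := pre e) (t := P) fun S hS => (mem_filter.1 hS).2]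
  refine sum_congr rfl fun T hT => ?_
  have hset : (univ.filter (fun S => pre e S ∈ P)).filter (fun S => pre e S = T) =
      univ.filter fun S => pre e S = T := by
    ext S; simp only [mem_filter, mem_univ, true_and, and_iff_right_iff_imp]
    rintro rfl; exact hT
  rw [hset]
  calc avg (fun x => (∑ S ∈ univ.filter (fun S => pre e S = T),
          coef f S * chi (out e S) x) ^ 2)
      = avg (fun x => ∑ S ∈ univ.filter (fun S => pre e S = T),
          ∑ S' ∈ univ.filter (fun S => pre e S = T),
            coef f S * coef f S' * (chi (out e S) x * chi (out e S') x)) := by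
        congr 1; funext x; rw [sq, sum_mul_sum]
        exact sum_congr rfl fun S _ => sum_congr rfl fun S' _ => by ring
    _ = _ := by
        simp only [avg_sum, avg_const_mul, avg_chi_mul]
        refine sum_congr rfl fun S hS => ?_
        rw [sum_eq_single S (fun S' hS' hne => ?_) fun h => absurd hS h]
        · simp [sq]
        · rw [if_neg, mul_zero]
          exact fun h => hne (pre_out_inj e ((mem_filter.1 hS').2.trans (mem_filter.1 hS).2.symm)
            h.symm)

theorem avg_sep_fib (f g : (ι → Bool) → ℝ) :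
    avg (fun x => sep (fib e f x) (fib e g x)) = sep f g := by
  have h : ∀ x, sep (fib e f x) (fib e g x) =
      ∑ T ∈ (univ : Finset (Finset κ)), coef (fib e (fun y => f y - g y) x) T ^ 2 :=
    fun x => by rw [parseval]; rfl
  simp only [h]
  rw [avg_fib_weight, sep_eq]
  simp [coef_sub]

theorem fib_perm {ρ : Equiv.Perm κ} {σ : Equiv.Perm ι} (h1 : ∀ t, σ (e t) = e (ρ t))
    (h2 : ∀ j, (∀ t, e t ≠ j) → σ j = j) (f : (ι → Bool) → ℝ) (x : ι → Bool) :
    (fun z => fib e f x (z ∘ ρ)) = fib e (fun y => f (y ∘ σ)) x := by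
  funext z
  simp only [fib]
  congr 1; funext j
  by_cases hj : ∃ t, e t = j
  · obtain ⟨t, rfl⟩ := hj
    simp [put_apply, h1]
  · push Not at hj
    simp [put_other e _ x hj, h2 j hj]

theorem fib_flip (t : κ) (f : (ι → Bool) → ℝ) (x : ι → Bool) :
    (fun z => fib e f x (flipBit t z)) = fib e (fun y => f (flipBit (e t) y)) x := by
  funext z
  simp only [fib]
  congr 1; funext j
  by_cases hj : ∃ t', e t' = j
  · obtain ⟨t', rfl⟩ := hj
    by_cases h : t' = t
    · subst h; simp [flipBit, put_apply]
    · simp [flipBit, put_apply, h]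
  · push Not at hj
    simp [flipBit, put_other e _ x hj, (hj t).symm]

/-- Low degree weight in a cell, averaged over the outside of the cell. -/
theorem cell_low_weight {m : ℕ} (ρ : Fin m → Equiv.Perm κ) (σ : Fin m → Equiv.Perm ι)
    (h1 : ∀ s t, σ s (e t) = e (ρ s t)) (h2 : ∀ s j, (∀ t, e t ≠ j) → σ s j = j)
    (hρ : ∀ t, Function.Injective fun s => (ρ s).symm t) (k : ℕ) (p0 η : ℝ) (hp0 : 0 < p0)
    (hm : 0 < m) (hη : 0 ≤ η) (hk : (9:ℝ) ^ k * p0 ≤ η ^ 2) {f : (ι → Bool) → ℝ}
    (hf : IsCut f) :
    ∑ S ∈ univ.filter (fun S => (pre e S).Nonempty ∧ (pre e S).card ≤ k), coef f S ^ 2 ≤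
      (η + 2 / (m * p0)) * ∑ t, infl f (e t) +
        8 / (m * p0) * ∑ s, sep (fun x => f (x ∘ σ s)) f := by
  have h := avg_mono fun x => cube_low_weight ρ hρ k p0 η hp0 hm hη hk
    (f := fib e f x) (fun z => hf _)
  rw [avg_fib_weight, avg_add, avg_const_mul, avg_const_mul, avg_sum, avg_sum] at h
  simp only [lowSets, mem_filter, mem_univ, true_and] at h
  refine h.trans (le_of_eq ?_)
  congr 1
  · congr 1
    refine sum_congr rfl fun t _ => ?_
    simp only [infl, fib_flip]
    exact avg_sep_fib e _ _
  · congr 1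
    refine sum_congr rfl fun s _ => ?_
    simp only [fib_perm e (h1 s) (h2 s)]
    exact avg_sep_fib e _ _

end Fibre

end Vale.Agent.P238
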