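import Vale.Agent.P238.Inequality
import Vale.Agent.P238.Edit

/-!
# P238: the lower bound `(log n)² / log log n` for the `ℓ₁` distortion of edit distance
-/

open Finset Filter Topology

namespace Vale.Agent.P238

theorem exists_injective (n : ℕ) : ∃ f : Word n → Ell1, Function.Injective f := by
  refine ⟨fun x => lp.single 1 (Fintype.equivFin (Word n) x : ℕ) (1:ℝ), fun x y h => ?_⟩
  have h' := congrArg (fun v : Ell1 => v (Fintype.equivFin (Word n) x : ℕ)) h
  by_contra hne
  have hne' : ((Fintype.equivFin (Word n) x : ℕ)) ≠ (Fintype.equivFin (Word n) y : ℕ) :=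
    fun e => hne ((Fintype.equivFin (Word n)).injective (Fin.ext e))
  simp [lp.single_apply, hne'] at h'

variable {n N : ℕ}

theorem ed_pos {x y : Word n} (h : x ≠ y) : 0 < ed x y :=
  editDist_pos fun e => h (List.ofFn_injective e)

theorem lip_of_iSup (f : Word n → Ell1) (x y : Word n) :
    ‖f x - f y‖ ≤ (⨆ p : OffDiag n, ‖f p.1.1 - f p.1.2‖ / (ed p.1.1 p.1.2 : ℝ)) * ed x y := by
  rcases eq_or_ne x y with rfl | h
  · simp [ed, editDist_self]
  · have hp : (0:ℝ) < ed x y := by exact_mod_cast ed_pos h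
    rw [← div_le_iff₀ hp]
    exact le_ciSup (f := fun p : OffDiag n => ‖f p.1.1 - f p.1.2‖ / (ed p.1.1 p.1.2 : ℝ))
      (Set.finite_range _).bddAbove ⟨(x, y), h⟩

theorem contr_of_iSup {f : Word n → Ell1} (hf : Function.Injective f) (x y : Word n) :
    (ed x y : ℝ) ≤
      (⨆ p : OffDiag n, (ed p.1.1 p.1.2 : ℝ) / ‖f p.1.1 - f p.1.2‖) * ‖f x - f y‖ := by
  rcases eq_or_ne x y with rfl | h
  · simp [ed, editDist_self]
  · have hp : 0 < ‖f x - f y‖ := norm_pos_iff.2 (sub_ne_zero.2 fun e => h (hf e))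
    rw [← div_le_iff₀ hp]
    exact le_ciSup (f := fun p : OffDiag n => (ed p.1.1 p.1.2 : ℝ) / ‖f p.1.1 - f p.1.2‖)
      (Set.finite_range _).bddAbove ⟨(x, y), h⟩

theorem hasSum_norm (v : Ell1) : HasSum (fun c => |v c|) ‖v‖ := by
  have := lp.hasSum_norm (p := 1) (by norm_num) v
  simpa using this

/-- bound on the mean of the pulled back kernel along a map -/
theorem meanAlong_le {f : Word n → Ell1} {A : ℝ} (hA0 : 0 ≤ A)
    (hA : ∀ x y, ‖f x - f y‖ ≤ A * ed x y) (φ : (Fin N → Bool) → Fin N → Bool) (c : ℕ)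
    (hc : ∀ x, editDist (wordList (padWord n (φ x))) (wordList (padWord n x)) ≤ c) :
    meanAlong φ (fun x y => ‖f (padWord n x) - f (padWord n y)‖) ≤ A * c := by
  refine (avg_mono fun x => ?_).trans (avg_const _).le
  refine (hA _ _).trans (mul_le_mul_of_nonneg_left ?_ hA0)
  exact_mod_cast hc x

theorem rotK_le {f : Word n → Ell1} {A : ℝ} (hA0 : 0 ≤ A)
    (hA : ∀ x y, ‖f x - f y‖ ≤ A * ed x y) (hn : N ≤ n) {lo len s : ℕ} (h : lo + len ≤ N)
    (hs : s ≤ len) {c : ℕ} (hc : 2 * s ≤ c ∨ 2 * (len - s) ≤ c) :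
    rotK (N := N) lo len s (fun x y => ‖f (padWord n x) - f (padWord n y)‖) ≤ A * c := by
  refine meanAlong_le hA0 hA _ c fun x => ?_
  have := rot_ed hn h hs x
  rcases hc with hc | hc
  · exact this.1.trans hc
  · exact this.2.trans hc

theorem farK_ge {q B J : ℕ} (hq : 0 < q) (hB : 8 ≤ B) (h64 : 64 ∣ B)
    (hN : (B * B) ^ J * q = N) (hn : N ≤ n) {f : Word n → Ell1} {C : ℝ} (hC : 0 < C)
    (hCf : ∀ x y, (ed x y : ℝ) ≤ C * ‖f x - f y‖) :
    (J:ℝ) * N / (256 * C) ≤
      farK (N := N) q B J (fun x y => ‖f (padWord n x) - f (padWord n y)‖) := by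
  obtain ⟨B', rfl⟩ := h64
  have hB' : 0 < B' := by omega
  simp only [farK, LinearMap.smul_apply, LinearMap.sum_apply, smul_eq_mul]
  set B := 64 * B' with hBdef
  set M := B * B with hM
  have h8 : 8 * B ≤ M := Nat.mul_le_mul_right B hB
  have hBR : (0:ℝ) < B := by exact_mod_cast (by omega : 0 < B)
  have hj : ∀ j ∈ range J, (B:ℝ) * N / (256 * C) ≤
      ∑ p ∈ range (M ^ (J - 1 - j)), ∑ m ∈ range (M - 4 * B),
        rotK (N := N) ((p * M + m) * (q * M ^ j)) (4 * B * (q * M ^ j)) (B * (q * M ^ j))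
          (fun x y => ‖f (padWord n x) - f (padWord n y)‖) := by
    intro j hj
    set b := q * M ^ j with hb
    set P := M ^ (J - 1 - j)
    have hb0 : 0 < b := Nat.mul_pos hq (pow_pos (by omega) j)
    have hPN : P * M * b = N := by
      rw [← hN, ← pow_succ, hb, ← mul_assoc, mul_right_comm, ← pow_add]
      congr 2
      have := mem_range.1 hj
      omega
    have hterm : ∀ p ∈ range P, ∀ m ∈ range (M - 4 * B), ((B' * b : ℕ):ℝ) / 2 / C ≤
        rotK (N := N) ((p * M + m) * b) (4 * B * b) (B * b)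
          (fun x y => ‖f (padWord n x) - f (padWord n y)‖) := by
      intro p hp m hm
      have hfit : (p * M + m) * b + 4 * B * b ≤ N := by
        rw [← add_mul, ← hPN]
        refine Nat.mul_le_mul_right b ?_
        have h1 : (p + 1) * M ≤ P * M := Nat.mul_le_mul_right M (mem_range.1 hp)
        rw [add_one_mul] at h1
        have := mem_range.1 hm
        omega
      have e1 : B * b = 64 * (B' * b) := by rw [hBdef]; ring
      have e2 : 4 * B * b = 4 * (64 * (B' * b)) := by rw [hBdef]; ring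
      rw [e2] at hfit
      rw [e1, e2, div_le_iff₀ hC]
      refine (rot_ed_lower hn (Nat.mul_pos hB' hb0) hfit).trans ?_
      show _ ≤ avg _ * C
      rw [mul_comm _ C, ← avg_const_mul]
      exact avg_mono fun x => hCf _ _
    refine le_trans ?_ (sum_le_sum fun p hp => sum_le_sum (hterm p hp))
    simp only [sum_const, card_range, nsmul_eq_mul]
    have hh : (M:ℝ) / 2 ≤ ((M - 4 * B : ℕ) : ℝ) := by
      rw [div_le_iff₀ two_pos]; exact_mod_cast (by omega : M ≤ (M - 4 * B) * 2)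
    have hPN' : (P:ℝ) * M * b = N := by exact_mod_cast hPN
    calc (B:ℝ) * N / (256 * C) = (P:ℝ) * ((M:ℝ) / 2 * (((B' * b : ℕ):ℝ) / 2 / C)) := by
          rw [← hPN', hBdef]; push_cast; ring
      _ ≤ _ := by gcongr
  refine le_trans ?_ (mul_le_mul_of_nonneg_left (sum_le_sum hj) (by positivity))
  simp only [sum_const, card_range, nsmul_eq_mul]
  refine le_of_eq ?_
  field_simp

theorem parK_le {q B J : ℕ} (hq : 0 < q) (hB : 8 ≤ B) (hN : (B * B) ^ J * q = N) (hn : N ≤ n)
    {f : Word n → Ell1} {A : ℝ} (hA0 : 0 ≤ A) (hA : ∀ x y, ‖f x - f y‖ ≤ A * ed x y) :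
    parK (N := N) q B J (fun x y => ‖f (padWord n x) - f (padWord n y)‖) ≤
      8 * A * J * N / B := by
  simp only [parK, LinearMap.sum_apply, LinearMap.add_apply]
  set M := B * B with hM
  have h8 : 8 * B ≤ M := Nat.mul_le_mul_right B hB
  have hBR : (0:ℝ) < B := by exact_mod_cast (by omega : 0 < B)
  refine (sum_le_sum (g := fun _ => 8 * A * N / B) fun j hj => ?_).trans (le_of_eq ?_)
  · set b := q * M ^ j with hb
    set P := M ^ (J - 1 - j)
    have hPN : P * M * b = N := by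
      rw [← hN, ← pow_succ, hb, ← mul_assoc, mul_right_comm, ← pow_add]
      congr 2
      have := mem_range.1 hj
      omega
    refine (sum_le_sum (g := fun _ => A * (8 * B * b : ℕ)) fun p hp => ?_).trans (le_of_eq ?_)
    · have hfit : p * M * b + M * b ≤ N := by
        rw [← add_mul, ← hPN, ← add_one_mul]
        exact Nat.mul_le_mul_right b (Nat.mul_le_mul_right M (mem_range.1 hp))
      have h1 := rotK_le hA0 hA hn hfit (s := B * b) (Nat.mul_le_mul_right b (by omega))
        (c := 2 * (B * b)) (.inl le_rfl)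
      have h2 := rotK_le hA0 hA hn hfit (s := (M - 3 * B) * b)
        (Nat.mul_le_mul_right b (by omega)) (c := 6 * (B * b)) (.inr (le_of_eq (by
          rw [← Nat.sub_mul, Nat.sub_sub_self (by omega)]; ring)))
      refine (add_le_add h1 h2).trans (le_of_eq ?_)
      push_cast; ring
    · simp only [sum_const, card_range, nsmul_eq_mul]
      rw [eq_div_iff hBR.ne']
      have : (P:ℝ) * M * b = N := by exact_mod_cast hPN
      rw [← this, hM]; push_cast; ring
  · simp only [sum_const, card_range, nsmul_eq_mul]; ring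

theorem cellK_le {q P m : ℕ} (hmq : m ≤ q) (hN : P * q = N) (hn : N ≤ n) {f : Word n → Ell1}
    {A : ℝ} (hA0 : 0 ≤ A) (hA : ∀ x y, ‖f x - f y‖ ≤ A * ed x y) :
    cellK (N := N) q P m (fun x y => ‖f (padWord n x) - f (padWord n y)‖) ≤
      2 * A * P * m * m := by
  simp only [cellK, LinearMap.sum_apply]
  refine (sum_le_sum fun I hI => sum_le_sum (g := fun _ : Fin m => A * (2 * m : ℕ))
    fun s _ => rotK_le hA0 hA hn ?_ (s.2.le.trans hmq)
      (.inl (Nat.mul_le_mul_left 2 s.2.le))).trans (le_of_eq ?_)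
  · rw [← add_one_mul, ← hN]; exact Nat.mul_le_mul_right q (mem_range.1 hI)
  · simp only [sum_const, card_range, card_univ, Fintype.card_fin, nsmul_eq_mul]
    push_cast; ring

theorem flipK_le {f : Word n → Ell1} {A : ℝ} (hA0 : 0 ≤ A) (hn : N ≤ n)
    (hA : ∀ x y, ‖f x - f y‖ ≤ A * ed x y) (i : Fin N) :
    flipK i (fun x y => ‖f (padWord n x) - f (padWord n y)‖) ≤ A := by
  have := meanAlong_le hA0 hA (flipBit i) 1 fun x => flip_ed hn i x
  simpa [flipK] using this

/-- The inequality at given parameters. -/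
theorem param_bound {k t J : ℕ} (hk : 1 ≤ k) (ht : 6 ≤ t) (hJ : J * k ≤ 2 ^ t)
    (hn : (2 ^ t * 2 ^ t) ^ J * 2 ^ (32 * k) ≤ n) {f : Word n → Ell1}
    (hf : Function.Injective f) : (J:ℝ) * k ≤ 256 * 712 * distortion f := by
  set B := 2 ^ t with hB
  set q := 2 ^ (32 * k) with hq
  set m := 2 ^ (16 * k) with hm
  set p0 : ℝ := ((1:ℝ) / 2) ^ (8 * k) with hp0def
  set η : ℝ := ((1:ℝ) / 2) ^ (2 * k) with hηdef
  set N := (B * B) ^ J * q with hN
  set A := ⨆ p : OffDiag n, ‖f p.1.1 - f p.1.2‖ / (ed p.1.1 p.1.2 : ℝ) with hAdef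
  set C := ⨆ p : OffDiag n, (ed p.1.1 p.1.2 : ℝ) / ‖f p.1.1 - f p.1.2‖ with hCdef
  have hB8 : 8 ≤ B := le_trans (by norm_num) (Nat.pow_le_pow_right (n := 2) (by norm_num) ht)
  have h64 : 64 ∣ B := by
    rw [hB, show (64:ℕ) = 2 ^ 6 by norm_num]; exact pow_dvd_pow 2 ht
  have hq0 : 0 < q := by positivity
  have hN0 : 0 < N := by positivity
  have hA0 : 0 ≤ A := Real.iSup_nonneg fun p => by positivity
  have hCf : ∀ x y, (ed x y : ℝ) ≤ C * ‖f x - f y‖ := contr_of_iSup hf
  have hC : 0 < C := by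
    have hn1 : 0 < n := by omega
    have hne : (fun _ => false : Word n) ≠ fun _ => true := fun e => by
      simpa using congrFun e ⟨0, hn1⟩
    have h1 := hCf (fun _ => false) (fun _ => true)
    have h2 : (0:ℝ) < ed (fun _ => false : Word n) (fun _ => true) := by
      exact_mod_cast ed_pos hne
    by_contra h
    have h3 := mul_nonpos_of_nonpos_of_nonneg (not_lt.1 h)
      (norm_nonneg (f (fun _ => false) - f (fun _ => true)))
    linarith
  have hA : ∀ x y, ‖f x - f y‖ ≤ A * ed x y := lip_of_iSup f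
  have hkη : (9:ℝ) ^ k * p0 ≤ η ^ 2 := by
    rw [hp0def, hηdef, ← pow_mul,
      show 8 * k = 4 * k + 4 * k by ring, pow_add, show 2 * k * 2 = 4 * k by ring, ← mul_assoc,
      pow_mul, ← mul_pow]
    refine mul_le_of_le_one_left (by positivity) (pow_le_one₀ (by norm_num) (by norm_num))
  have hgap : gapK (N := N) q B J m k p0 η
      (fun x y => ‖f (padWord n x) - f (padWord n y)‖) ≤ 0 := by
    refine ker_sum _ (fun u => ker_layer _ (fun g hg => gap_cut hq0 hB8 (by positivity)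
      (Nat.pow_le_pow_right (by norm_num) (by omega)) hk rfl (by positivity) (by positivity)
      hkη hg) u) (fun c x => f (padWord n x) c) _ fun x y => ?_
    exact hasSum_norm (f (padWord n x) - f (padWord n y))
  simp only [gapK, LinearMap.sub_apply, LinearMap.add_apply, LinearMap.smul_apply,
    LinearMap.sum_apply, smul_eq_mul] at hgap
  have h1 := farK_ge hq0 hB8 h64 (N := N) rfl hn hC hCf
  have h2 := parK_le hq0 hB8 (N := N) rfl hn hA0 hA
  have h3 := cellK_le (m := m) (Nat.pow_le_pow_right (by norm_num) (by omega)) (N := N)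
    (P := (B * B) ^ J) (q := q) rfl hn hA0 hA
  have h4 : ∑ i : Fin N, flipK i (fun x y => ‖f (padWord n x) - f (padWord n y)‖) ≤ N * A :=
    (sum_le_sum fun i _ => flipK_le hA0 hn hA i).trans (le_of_eq (by simp))
  have hk' : (1:ℝ) ≤ k := by exact_mod_cast hk
  have hmp : (m:ℝ) * p0 = 2 ^ (8 * k) := by
    have e : (2:ℝ) ^ (16 * k) = 2 ^ (8 * k) * 2 ^ (8 * k) := by
      rw [← pow_add]; congr 1; ring
    rw [hm, hp0def, one_div, inv_pow, ← div_eq_mul_inv]
    push_cast
    rw [e]; field_simp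
  have hm2 : (m:ℝ) * m = q := by
    rw [hm, hq]; push_cast; rw [← pow_add]; congr 1; ring
  have hpow : ∀ e, k ≤ e → (k:ℝ) ≤ 2 ^ e := fun e he => by
    exact_mod_cast (Nat.le_trans he Nat.lt_two_pow_self.le)
  have hη1 : η ≤ 1 / k := by
    rw [hηdef, one_div, inv_pow, one_div]
    exact inv_anti₀ (by positivity) (hpow _ (by omega))
  have hinv : 1 / ((m:ℝ) * p0) ≤ 1 / k := by
    rw [hmp]; exact one_div_le_one_div_of_le (by positivity) (hpow _ (by omega))
  have hmp0 : 0 < (m:ℝ) * p0 := by rw [hmp]; positivity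
  have hη0 : 0 ≤ η := by rw [hηdef]; positivity
  have hNR : ((B * B) ^ J : ℕ) * (q:ℝ) = N := by rw [hN]; push_cast; ring
  have hJB : (J:ℝ) / B ≤ 1 / k := by
    rw [div_le_div_iff₀ (by positivity) (by linarith), one_mul]; exact_mod_cast hJ
  have hNA : 0 ≤ (N:ℝ) * A := by positivity
  have b1 : 4 * parK (N := N) q B J (fun x y => ‖f (padWord n x) - f (padWord n y)‖) ≤
      32 * ((N:ℝ) * A) * (1 / k) :=
    calc _ ≤ 4 * (8 * A * J * N / B) := by linarith
      _ = 32 * ((N:ℝ) * A) * (J / B) := by ring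
      _ ≤ _ := by gcongr
  have b2 : (8 / (k:ℝ) + 32 * (η + 2 / (m * p0))) *
      ∑ i : Fin N, flipK i (fun x y => ‖f (padWord n x) - f (padWord n y)‖) ≤
      104 * ((N:ℝ) * A) * (1 / k) := by
    refine (mul_le_mul_of_nonneg_left h4 (by positivity)).trans ?_
    have h2' : 2 / ((m:ℝ) * p0) ≤ 2 * (1 / k) :=
      calc 2 / ((m:ℝ) * p0) = 2 * (1 / (m * p0)) := by ring
        _ ≤ _ := by gcongr
    have h5 : 8 / (k:ℝ) + 32 * (η + 2 / (m * p0)) ≤ 104 * (1 / k) := by
      rw [show 8 / (k:ℝ) = 8 * (1 / k) by ring]; linarith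
    calc _ ≤ 104 * (1 / (k:ℝ)) * (N * A) := mul_le_mul_of_nonneg_right h5 hNA
      _ = _ := by ring
  have b3 : 32 * (8 / ((m:ℝ) * p0)) *
      cellK (N := N) q ((B * B) ^ J) m (fun x y => ‖f (padWord n x) - f (padWord n y)‖) ≤
      512 * ((N:ℝ) * A) * (1 / k) :=
    calc _ ≤ 32 * (8 / ((m:ℝ) * p0)) * (2 * A * ((B * B) ^ J : ℕ) * m * m) := by gcongr
      _ = 512 * ((N:ℝ) * A) * (1 / (m * p0)) := by rw [← hNR, ← hm2]; ring
      _ ≤ _ := by gcongr
  have key : (J:ℝ) * N / (256 * C) ≤ 712 * ((N:ℝ) * A) * (1 / k) := by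
    have : 0 ≤ (N:ℝ) * A * (1 / k) := by positivity
    nlinarith
  have hNpos : (0:ℝ) < N := by exact_mod_cast hN0
  rw [div_le_iff₀ (by positivity), mul_one_div, div_mul_eq_mul_div, le_div_iff₀ (by linarith)]
    at key
  show (J:ℝ) * k ≤ 256 * 712 * (A * C)
  exact le_of_mul_le_mul_right (le_of_le_of_eq (le_of_eq_of_le (by ring) key)
    (show (712:ℝ) * ((N:ℝ) * A) * (256 * C) = 256 * 712 * (A * C) * N by ring)) hNpos

theorem log_le_sqrt_two_pow : ∀ l : ℕ, 4 * l + 8 ≤ 2 ^ (l / 2) + 100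
  | 0 => by norm_num
  | 1 => by norm_num
  | l + 2 => by
    have := log_le_sqrt_two_pow l
    rw [show (l + 2) / 2 = l / 2 + 1 by omega, pow_succ]
    by_cases hl : l < 22
    · have : 1 ≤ 2 ^ (l / 2) := Nat.one_le_two_pow
      omega
    · have : 2 ^ 11 ≤ 2 ^ (l / 2) := Nat.pow_le_pow_right (by norm_num) (by omega)
      omega

/-- The lower bound. -/
theorem c1_lower : ∃ c : ℝ, 0 < c ∧ ∀ᶠ n : ℕ in atTop,
    c * Real.log n ^ 2 / Real.log (Real.log n) ≤ c1 n := by
  refine ⟨1 / (2 ^ 16 * (256 * 712)), by norm_num, eventually_atTop.2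
    ⟨2 ^ 1000000, fun n hn => ?_⟩⟩
  set L := Nat.log 2 n with hL
  have hL6 : 1000000 ≤ L := Nat.le_log_of_pow_le (by norm_num) hn
  have hn0 : n ≠ 0 := (lt_of_lt_of_le (Nat.two_pow_pos _) hn).ne'
  set l := Nat.log 2 L with hl
  have hl1 : 19 ≤ l := Nat.le_log_of_pow_le (by norm_num) (le_trans (by norm_num) hL6)
  have hlL : 2 ^ l ≤ L := Nat.pow_log_le_self 2 (by omega)
  have hLl : L < 2 ^ (l + 1) := Nat.lt_pow_succ_log_self (by norm_num) L
  set t := 2 * (l + 1) with ht
  set k := L / 64 with hk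
  set J := L / (4 * t) with hJ
  have ht4 : 4 * t ≤ L := by
    have h1 := log_le_sqrt_two_pow l
    have h2 : 2 ^ (l / 2) * 2 ^ 9 ≤ 2 ^ l := by
      rw [← pow_add]; exact Nat.pow_le_pow_right (by norm_num) (by omega)
    omega
  have hk1 : 1 ≤ k := by omega
  have hJ1 : 1 ≤ J := Nat.div_pos ht4 (by omega) |>.nat_succ_le
  have hJk : J * k ≤ 2 ^ t := by
    calc J * k ≤ L * L := Nat.mul_le_mul (Nat.div_le_self _ _) (Nat.div_le_self _ _)
      _ ≤ 2 ^ (l + 1) * 2 ^ (l + 1) := Nat.mul_le_mul hLl.le hLl.le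
      _ = 2 ^ t := by rw [← pow_add, ht, two_mul]
  have hfit : (2 ^ t * 2 ^ t) ^ J * 2 ^ (32 * k) ≤ n := by
    rw [← pow_add, ← pow_mul, ← pow_add]
    refine le_trans (Nat.pow_le_pow_right (by norm_num) ?_) (Nat.pow_log_le_self 2 hn0)
    have h1 : 4 * t * J ≤ L := Nat.mul_div_le L (4 * t)
    have h2 : (t + t) * J * 2 = 4 * t * J := by ring
    omega
  refine le_csInf ?_ ?_
  · obtain ⟨f, hf⟩ := exists_injective n
    exact ⟨_, f, hf, rfl⟩
  rintro d ⟨f, hf, rfl⟩
  have hp := param_bound hk1 (by omega) hJk hfit hf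
  have hnR : (0:ℝ) < n := by exact_mod_cast Nat.pos_of_ne_zero hn0
  have up : Real.log n ≤ 2 * L := by
    have h : (n:ℝ) ≤ (2:ℝ) ^ (L + 1) := by
      exact_mod_cast (Nat.lt_pow_succ_log_self (by norm_num) n).le
    refine (Real.log_le_log hnR h).trans ?_
    rw [Real.log_pow]; push_cast
    have := Real.log_two_lt_d9
    have : (1000000:ℝ) ≤ L := by exact_mod_cast hL6
    nlinarith
  have low : (L:ℝ) / 2 ≤ Real.log n := by
    have h : (2:ℝ) ^ L ≤ n := by exact_mod_cast Nat.pow_log_le_self 2 hn0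
    refine le_trans ?_ (Real.log_le_log (by positivity) h)
    rw [Real.log_pow]
    have := Real.log_two_gt_d9
    have : (1000000:ℝ) ≤ L := by exact_mod_cast hL6
    nlinarith
  have hl0 : (19:ℝ) ≤ l := by exact_mod_cast hl1
  have low2 : (l:ℝ) / 4 ≤ Real.log (Real.log n) := by
    have h : (2:ℝ) ^ l ≤ L := by exact_mod_cast hlL
    have h' : (2:ℝ) ^ (l - 1) ≤ Real.log n := by
      have e : (2:ℝ) ^ l = 2 ^ (l - 1) * 2 := by rw [← pow_succ]; congr 1; omega
      linarith
    refine le_trans ?_ (Real.log_le_log (by positivity) h')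
    rw [Real.log_pow, Nat.cast_sub (by omega)]
    have := Real.log_two_gt_d9
    push_cast; nlinarith
  have hll : 0 < Real.log (Real.log n) := by linarith
  have hkR : (L:ℝ) ≤ 128 * k := by exact_mod_cast (by omega : L ≤ 128 * k)
  have hJR : (L:ℝ) ≤ 32 * (l * J) := by
    have h1 : L < 4 * t * (J + 1) := by
      have := Nat.lt_mul_div_succ L (show 0 < 4 * t by omega)
      exact this
    have h2 : 4 * t * (J + 1) ≤ 16 * l * (2 * J) := by
      refine Nat.mul_le_mul ?_ ?_ <;> omega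
    have h3 : 16 * l * (2 * J) = 32 * (l * J) := by ring
    exact_mod_cast (by omega : L ≤ 32 * (l * J))
  rw [div_le_iff₀ hll]
  have hd : 0 ≤ distortion f := by
    have : (0:ℝ) ≤ J * k := by positivity
    linarith
  have hlog2 : Real.log n ^ 2 ≤ 4 * (L:ℝ) ^ 2 := by nlinarith
  have hJk' : (L:ℝ) ^ 2 ≤ 4096 * l * ((J:ℝ) * k) := by
    calc (L:ℝ) ^ 2 = L * L := sq _
      _ ≤ (32 * (l * J)) * (128 * k) := mul_le_mul hJR hkR (by positivity) (by positivity)
      _ = _ := by ring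
  calc 1 / (2 ^ 16 * (256 * 712)) * Real.log n ^ 2
      ≤ 1 / (2 ^ 16 * (256 * 712)) * (4 * (4096 * l * (256 * 712 * distortion f))) := by
        refine mul_le_mul_of_nonneg_left ?_ (by norm_num)
        nlinarith [mul_le_mul_of_nonneg_left hp (by positivity : (0:ℝ) ≤ 4096 * l)]
    _ = distortion f * ((l:ℝ) / 4) := by ring
    _ ≤ _ := mul_le_mul_of_nonneg_left low2 hd

/-- In particular the distortion is not `O(log n)`. -/
theorem c1_div_log_tendsto : Tendsto (fun n : ℕ => c1 n / Real.log n) atTop atTop := by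
  obtain ⟨c, hc, h⟩ := c1_lower
  have hlog : Tendsto (fun n : ℕ => Real.log n) atTop atTop :=
    Real.tendsto_log_atTop.comp tendsto_natCast_atTop_atTop
  have h0 : Tendsto (fun x : ℝ => Real.log x / x) atTop (𝓝 0) := by
    simpa using Real.tendsto_pow_log_div_mul_add_atTop 1 0 1 one_ne_zero
  have h1 : Tendsto (fun x : ℝ => x / Real.log x) atTop atTop := by
    have hpos : ∀ᶠ x : ℝ in atTop, 0 < Real.log x / x :=
      (eventually_gt_atTop (1:ℝ)).mono fun x hx => div_pos (Real.log_pos hx) (by linarith)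
    refine (tendsto_inv_nhdsGT_zero.comp (tendsto_nhdsWithin_iff.2 ⟨h0, hpos⟩)).congr fun x => ?_
    simp only [Function.comp, inv_div]
  refine tendsto_atTop_mono' _ ?_ ((h1.comp hlog).const_mul_atTop hc)
  filter_upwards [h, hlog.eventually_gt_atTop 0] with n hn hpos
  rw [Function.comp, le_div_iff₀ hpos]
  refine le_trans (le_of_eq ?_) hn
  ring

end Vale.Agent.P238
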