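import Vale.Agent.P238.Local

/-!
# P238: the multiscale inequality

Intervals are cut into cells at geometrically growing scales. A set of positions is shifted like
a translation by the rotations of one scale unless it occupies at least two cells in the same
parent; the number of such events telescopes over the scales to the number of occupied bottom
cells.
-/

open Finset

namespace Vale.Agent.P238

/-- rotation of `[lo, lo + len)` by `s` -/
def rotN (lo len s i : ℕ) : ℕ :=
  if lo ≤ i ∧ i < lo + len then lo + (i - lo + s) % len else i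

theorem rotN_lt {lo len s i N : ℕ} (h : lo + len ≤ N) (hi : i < N) : rotN lo len s i < N := by
  unfold rotN
  split
  · have := Nat.mod_lt (i - lo + s) (y := len) (by omega)
    omega
  · exact hi

theorem rotN_mem_iff (lo len s i : ℕ) :
    (lo ≤ rotN lo len s i ∧ rotN lo len s i < lo + len) ↔ (lo ≤ i ∧ i < lo + len) := by
  unfold rotN
  split
  · have := Nat.mod_lt (i - lo + s) (y := len) (by omega)
    constructor <;> intro _ <;> first | assumption | omega
  · rfl

theorem rotN_injective (lo len s : ℕ) : Function.Injective (rotN lo len s) := by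
  intro a b h
  by_cases ha : lo ≤ a ∧ a < lo + len
  · have hb : lo ≤ b ∧ b < lo + len := by
      rw [← rotN_mem_iff lo len s b, ← h, rotN_mem_iff]; exact ha
    simp only [rotN, if_pos ha, if_pos hb, add_right_inj] at h
    have h' : (a - lo) % len = (b - lo) % len := Nat.ModEq.add_right_cancel' s h
    rw [Nat.mod_eq_of_lt (by omega), Nat.mod_eq_of_lt (by omega)] at h'
    omega
  · have hb : ¬(lo ≤ b ∧ b < lo + len) := by
      rw [← rotN_mem_iff lo len s b, ← h, rotN_mem_iff]; exact ha
    simpa only [rotN, if_neg ha, if_neg hb] using h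

theorem rotN_scale {b : ℕ} (hb : 0 < b) (L n d i : ℕ) :
    rotN (L * b) (n * b) (d * b) i = rotN L n d (i / b) * b + i % b := by
  have hi := Nat.div_add_mod i b
  have ho := Nat.mod_lt i hb
  set c := i / b
  set o := i % b
  have h1 : L * b ≤ i ↔ L ≤ c := (Nat.le_div_iff_mul_le hb).symm
  have h2 : i < L * b + n * b ↔ c < L + n := by
    rw [← add_mul]; exact (Nat.div_lt_iff_lt_mul hb).symm
  unfold rotN
  simp only [h1, h2]
  split
  next h =>
    have hn : 0 < n := by omega
    have e : i - L * b + d * b = (c - L + d) * b + o := by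
      rw [add_mul, Nat.sub_mul]
      have : L * b ≤ c * b := Nat.mul_le_mul_right b h.1
      rw [← hi, mul_comm b c]; omega
    have key : ((c - L + d) * b + o) % (n * b) = (c - L + d) % n * b + o := by
      have hdm := Nat.div_add_mod (c - L + d) n
      have hlt : (c - L + d) % n * b + o < n * b := by
        have : ((c - L + d) % n + 1) * b ≤ n * b := Nat.mul_le_mul_right b (Nat.mod_lt _ hn)
        rw [add_mul, one_mul] at this; omega
      have e2 : (c - L + d) * b + o =
          (c - L + d) % n * b + o + (c - L + d) / n * (n * b) := by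
        conv_lhs => rw [← hdm]
        ring
      rw [e2, Nat.add_mul_mod_self_right, Nat.mod_eq_of_lt hlt]
    rw [e, key, add_mul, add_assoc]
  next h => rw [← hi, mul_comm b c]

variable {N : ℕ}

open Classical in
/-- rotation of an interval of positions -/
noncomputable def rot (lo len s : ℕ) : Equiv.Perm (Fin N) :=
  if h : lo + len ≤ N then
    Equiv.ofBijective (fun i => ⟨rotN lo len s i, rotN_lt h i.2⟩)
      (Finite.injective_iff_bijective.1 fun a b e =>
        Fin.ext (rotN_injective lo len s (Fin.val_eq_of_eq e)))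
  else 1

theorem rot_val {lo len s : ℕ} (h : lo + len ≤ N) (i : Fin N) :
    (rot lo len s i : ℕ) = rotN lo len s i := by
  simp [rot, dif_pos h]

theorem sep_perm_eq (f : (Fin N → Bool) → ℝ) (π : Equiv.Perm (Fin N)) :
    sep (fun x => f (x ∘ π)) f =
      ∑ S, (coef f (S.map π.toEmbedding) - coef f S) ^ 2 := by
  rw [sep_eq]
  simp only [coef_perm]
  rw [← (Equiv.finsetCongr π).sum_comp]
  refine sum_congr rfl fun S _ => ?_
  simp only [Equiv.finsetCongr_apply, Finset.map_map]
  have : π.toEmbedding.trans π.symm.toEmbedding = Function.Embedding.refl _ := by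
    ext; simp
  rw [this, map_refl]
  ring

/-- occupied cells -/
def occ (b : ℕ) (S : Finset (Fin N)) : Finset ℕ := S.image fun i => i.val / b

/-- occupied children of a parent -/
def kids (b M p : ℕ) (S : Finset (Fin N)) : Finset ℕ := (occ b S).filter fun c => c / M = p

theorem mem_kids {b M p c : ℕ} {S : Finset (Fin N)} :
    c ∈ kids b M p S ↔ ∃ i ∈ S, i.val / b = c ∧ c / M = p := by
  simp only [kids, occ, mem_filter, Finset.mem_image]
  constructor
  · rintro ⟨⟨i, hi, rfl⟩, h⟩; exact ⟨i, hi, rfl, h⟩
  · rintro ⟨i, hi, rfl, h⟩; exact ⟨⟨i, hi, rfl⟩, h⟩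

theorem parent_iff {M p c : ℕ} (hM : 0 < M) : c / M = p ↔ p * M ≤ c ∧ c < p * M + M := by
  rw [Nat.div_eq_iff hM]
  omega

/-- One parent at one scale. -/
theorem parent_bound {b B M p : ℕ} (hb : 0 < b) (hB : 0 < B) (hM : 4 * B ≤ M)
    (hp : (p + 1) * M * b ≤ N) (f : (Fin N → Bool) → ℝ) :
    ∑ m ∈ range (M - 4 * B),
        sep (fun x => f (x ∘ rot ((p * M + m) * b) (4 * B * b) (B * b))) f ≤
      4 * B * (sep (fun x => f (x ∘ rot (p * M * b) (M * b) (B * b))) f +
          sep (fun x => f (x ∘ rot (p * M * b) (M * b) ((M - 3 * B) * b))) f) +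
        32 * B * ∑ S, coef f S ^ 2 *
          (((kids b M p S).card : ℝ) - if (kids b M p S).Nonempty then 1 else 0) := by
  have hM0 : 0 < M := by omega
  set R : ℕ → Equiv.Perm (Fin N) := fun m => rot ((p * M + m) * b) (4 * B * b) (B * b) with hR
  set s1 : Equiv.Perm (Fin N) := rot (p * M * b) (M * b) (B * b)
  set s2 : Equiv.Perm (Fin N) := rot (p * M * b) (M * b) ((M - 3 * B) * b)
  set hit : ℕ → Finset (Fin N) → Prop := fun m S =>
    ∃ c ∈ kids b M p S, p * M + m ≤ c ∧ c < p * M + m + 4 * B with hhit
  classical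
  have hfitR : ∀ m < M - 4 * B, (p * M + m) * b + 4 * B * b ≤ N := fun m hm => by
    refine le_trans ?_ hp
    rw [← add_mul]; exact Nat.mul_le_mul_right b (by rw [add_mul, one_mul]; omega)
  have hfit : p * M * b + M * b ≤ N := by rw [← add_mul, ← add_one_mul]; exact hp
  have hRcell : ∀ m < M - 4 * B, ∀ i : Fin N,
      (R m i : ℕ) / b = rotN (p * M + m) (4 * B) B (i.val / b) := fun m hm i => by
    rw [hR, rot_val (hfitR m hm), rotN_scale hb, Nat.add_comm, Nat.add_mul_div_right _ _ hb,
      Nat.div_eq_of_lt (Nat.mod_lt _ hb), zero_add]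
  have hpres : ∀ m < M - 4 * B, ∀ c, rotN (p * M + m) (4 * B) B c / M = p ↔ c / M = p := by
    intro m hm c
    rw [parent_iff hM0, parent_iff hM0]
    by_cases h : p * M + m ≤ c ∧ c < p * M + m + 4 * B
    · have := (rotN_mem_iff (p * M + m) (4 * B) B c).2 h
      omega
    · rw [rotN, if_neg h]
  have hkids : ∀ m < M - 4 * B, ∀ S, kids b M p (S.map (R m).toEmbedding) =
      (kids b M p S).image (rotN (p * M + m) (4 * B) B) := by
    intro m hm S; ext c
    simp only [mem_kids, Finset.mem_map, Finset.mem_image]
    constructor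
    · rintro ⟨_, ⟨i, hi, rfl⟩, rfl, hc⟩
      refine ⟨i.val / b, ⟨i, hi, rfl, ?_⟩, (hRcell m hm i).symm⟩
      rwa [Equiv.toEmbedding_apply, hRcell m hm, hpres m hm] at hc
    · rintro ⟨_, ⟨i, hi, rfl, hc⟩, rfl⟩
      exact ⟨R m i, ⟨i, hi, rfl⟩, hRcell m hm i, (hpres m hm _).2 hc⟩
  have hhitR : ∀ m < M - 4 * B, ∀ S, hit m (S.map (R m).toEmbedding) ↔ hit m S := by
    intro m hm S
    simp only [hhit, hkids m hm, Finset.exists_mem_image, rotN_mem_iff]
  have hcardR : ∀ m < M - 4 * B, ∀ S,
      (kids b M p (S.map (R m).toEmbedding)).card = (kids b M p S).card := fun m hm S => by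
    rw [hkids m hm, card_image_of_injective _ (rotN_injective _ _ _)]
  set bad : ℕ → Finset (Fin N) → ℝ := fun m S =>
    if hit m S ∧ 2 ≤ (kids b M p S).card then 1 else 0
  set good : ℕ → Finset (Fin N) → ℝ := fun m S =>
    if hit m S ∧ (kids b M p S).card ≤ 1 then 1 else 0
  set d1 : Finset (Fin N) → ℝ := fun S =>
    (coef f (S.map s1.toEmbedding) - coef f S) ^ 2
  set d2 : Finset (Fin N) → ℝ := fun S =>
    (coef f (S.map s2.toEmbedding) - coef f S) ^ 2
  have hpoint : ∀ m < M - 4 * B, ∀ S, (coef f (S.map (R m).toEmbedding) - coef f S) ^ 2 ≤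
      good m S * (d1 S + d2 S) +
        2 * (bad m S * coef f S ^ 2 +
          bad m (S.map (R m).toEmbedding) * coef f (S.map (R m).toEmbedding) ^ 2) := by
    intro m hm S
    by_cases h : hit m S
    · by_cases h2 : 2 ≤ (kids b M p S).card
      · have hb1 : bad m S = 1 := if_pos ⟨h, h2⟩
        have hb2 : bad m (S.map (R m).toEmbedding) = 1 :=
          if_pos ⟨(hhitR m hm S).2 h, by rw [hcardR m hm]; exact h2⟩
        have hg : good m S = 0 := if_neg (by omega)
        rw [hb1, hb2, hg]
        nlinarith [sq_nonneg (coef f (S.map (R m).toEmbedding) + coef f S)]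
      · have hg : good m S = 1 := if_pos ⟨h, by omega⟩
        have hb1 : bad m S = 0 := if_neg fun hh => h2 hh.2
        have hb2 : bad m (S.map (R m).toEmbedding) = 0 :=
          if_neg fun hh => h2 (by rw [hcardR m hm] at hh; exact hh.2)
        rw [hb1, hb2, hg]
        obtain ⟨c, hc, hc1, hc2⟩ := h
        have honly : ∀ i ∈ S, (i.val / b) / M = p → i.val / b = c := fun i hi hh =>
          card_le_one.1 (by omega) _ (mem_kids.2 ⟨i, hi, rfl, hh⟩) _ hc
        have hfix : ∀ i ∈ S, (i.val / b) / M ≠ p → ∀ d,
            (R m i : ℕ) = i ∧ rotN (p * M * b) (M * b) (d * b) i = i := by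
          intro i _ hh d
          rw [ne_eq, parent_iff hM0] at hh
          have e := Nat.div_add_mod' i.val b
          constructor
          · rw [hR, rot_val (hfitR m hm), rotN_scale hb, rotN, if_neg (by omega), e]
          · rw [rotN_scale hb, rotN, if_neg (by omega), e]
        have hin : ∀ d d' : ℕ, (∀ i ∈ S, i.val / b = c →
            rotN (p * M + m) (4 * B) B c = rotN (p * M) M d' c) →
            d = d' * b → S.map (R m).toEmbedding =
              S.map (rot (p * M * b) (M * b) d).toEmbedding := by
          intro d d' hd hdd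
          rw [map_eq_image, map_eq_image]
          refine image_congr fun i hi => Fin.ext ?_
          simp only [Equiv.toEmbedding_apply, rot_val hfit, hdd]
          by_cases hh : (i.val / b) / M = p
          · have hic := honly i hi hh
            rw [hR, rot_val (hfitR m hm), rotN_scale hb, rotN_scale hb, hic, hd i hi hic]
          · rw [(hfix i hi hh d').1, (hfix i hi hh d').2]
        by_cases hlow : c < p * M + m + 3 * B
        · have e : S.map (R m).toEmbedding = S.map s1.toEmbedding := by
            refine hin _ B (fun i _ _ => ?_) rfl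
            rw [rotN, if_pos ⟨hc1, hc2⟩, rotN, if_pos (by omega),
              Nat.mod_eq_of_lt (by omega), Nat.mod_eq_of_lt (by omega)]
            omega
          rw [e]
          linarith [sq_nonneg (coef f (S.map s2.toEmbedding) - coef f S)]
        · have e : S.map (R m).toEmbedding = S.map s2.toEmbedding := by
            refine hin _ (M - 3 * B) (fun i _ _ => ?_) rfl
            rw [rotN, if_pos ⟨hc1, hc2⟩, rotN, if_pos (by omega),
              Nat.mod_eq_sub_mod (by omega), Nat.mod_eq_of_lt (by omega),
              Nat.mod_eq_sub_mod (show M ≤ c - p * M + (M - 3 * B) by omega),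
              Nat.mod_eq_of_lt (by omega)]
            omega
          rw [e]
          linarith [sq_nonneg (coef f (S.map s1.toEmbedding) - coef f S)]
    · have e : S.map (R m).toEmbedding = S := by
        rw [map_eq_image]
        refine (image_congr fun i hi => ?_).trans image_id
        apply Fin.ext
        simp only [Equiv.toEmbedding_apply, id]
        rw [hR, rot_val (hfitR m hm), rotN_scale hb, rotN, if_neg, Nat.div_add_mod']
        intro hh
        exact h ⟨_, mem_kids.2 ⟨i, hi, rfl, (parent_iff hM0).2 (by omega)⟩, hh⟩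
      rw [e]
      have hg : good m S = 0 := if_neg fun hh => h hh.1
      have hb1 : bad m S = 0 := if_neg fun hh => h hh.1
      rw [hg, hb1]; simp
  have hcount : ∀ S, ((range (M - 4 * B)).filter fun m => hit m S).card ≤
      4 * B * (kids b M p S).card := by
    intro S
    refine (card_le_card (t := (kids b M p S).biUnion fun c =>
      Ico (c - p * M + 1 - 4 * B) (c - p * M + 1)) ?_).trans ?_
    · intro m hm
      obtain ⟨c, hc, h1, h2⟩ := (mem_filter.1 hm).2
      exact mem_biUnion.2 ⟨c, hc, mem_Ico.2 ⟨by omega, by omega⟩⟩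
    · exact card_biUnion_le.trans ((sum_le_sum (g := fun _ => 4 * B) fun c _ => by
        rw [Nat.card_Ico]; omega).trans_eq (by rw [sum_const, smul_eq_mul, mul_comm]))
  have hgood : ∀ S, ∑ m ∈ range (M - 4 * B), good m S ≤ 4 * B := by
    intro S
    have e0 : ∑ m ∈ range (M - 4 * B), good m S =
        (((range (M - 4 * B)).filter fun m => hit m S ∧ (kids b M p S).card ≤ 1).card : ℝ) := by
      exact Finset.sum_boole _ _
    rw [e0]
    by_cases h : (kids b M p S).card ≤ 1
    · have h1 := hcount S
      have h2 : ((range (M - 4 * B)).filter fun m => hit m S ∧ (kids b M p S).card ≤ 1).card ≤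
          4 * B := (card_le_card (monotone_filter_right _ fun _ _ h => h.1)).trans
          (h1.trans (by nlinarith))
      calc _ ≤ ((4 * B : ℕ) : ℝ) := by exact_mod_cast h2
        _ = _ := by push_cast; ring
    · simp [h]
  have hbad : ∀ S, ∑ m ∈ range (M - 4 * B), bad m S ≤
      8 * B * (((kids b M p S).card : ℝ) - if (kids b M p S).Nonempty then 1 else 0) := by
    intro S
    have e0 : ∑ m ∈ range (M - 4 * B), bad m S =
        (((range (M - 4 * B)).filter fun m => hit m S ∧ 2 ≤ (kids b M p S).card).card : ℝ) := by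
      exact Finset.sum_boole _ _
    rw [e0]
    by_cases h : 2 ≤ (kids b M p S).card
    · rw [if_pos (card_pos.1 (by omega))]
      have h1 : ((range (M - 4 * B)).filter fun m => hit m S ∧ 2 ≤ (kids b M p S).card).card ≤
          4 * B * (kids b M p S).card :=
        (card_le_card (monotone_filter_right _ fun _ _ h => h.1)).trans (hcount S)
      have h3 : (2:ℝ) ≤ (kids b M p S).card := by exact_mod_cast h
      have h4 : ((4 * B * (kids b M p S).card : ℕ) : ℝ) ≤
          8 * B * ((kids b M p S).card - 1) := by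
        push_cast; nlinarith [(Nat.cast_nonneg B : (0:ℝ) ≤ B)]
      exact le_trans (by exact_mod_cast h1) h4
    · rw [filter_false_of_mem fun m _ hh => h hh.2, card_empty, Nat.cast_zero]
      refine mul_nonneg (by positivity) ?_
      split
      · rename_i hne
        have : (1:ℝ) ≤ (kids b M p S).card := by exact_mod_cast hne.card_pos
        linarith
      · simp
  calc ∑ m ∈ range (M - 4 * B), sep (fun x => f (x ∘ R m)) f
      ≤ ∑ m ∈ range (M - 4 * B), ∑ S, (good m S * (d1 S + d2 S) +
          4 * (bad m S * coef f S ^ 2)) := by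
        refine sum_le_sum fun m hm => ?_
        have hm' := mem_range.1 hm
        rw [sep_perm_eq]
        refine (sum_le_sum fun S _ => hpoint m hm' S).trans (le_of_eq ?_)
        simp only [sum_add_distrib, ← mul_sum]
        have := (Equiv.finsetCongr (R m)).sum_comp fun T => bad m T * coef f T ^ 2
        simp only [Equiv.finsetCongr_apply] at this
        rw [this]; ring
    _ = ∑ S, ((∑ m ∈ range (M - 4 * B), good m S) * (d1 S + d2 S) +
          4 * ((∑ m ∈ range (M - 4 * B), bad m S) * coef f S ^ 2)) := by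
        rw [sum_comm]; simp only [sum_add_distrib, mul_sum, sum_mul]
    _ ≤ ∑ S, (4 * B * (d1 S + d2 S) + 32 * B * (coef f S ^ 2 *
          (((kids b M p S).card : ℝ) - if (kids b M p S).Nonempty then 1 else 0))) := by
        refine sum_le_sum fun S _ => add_le_add
          (mul_le_mul_of_nonneg_right (hgood S) (by positivity)) ?_
        nlinarith [mul_le_mul_of_nonneg_right (hbad S) (sq_nonneg (coef f S))]
    _ = _ := by
        rw [sum_add_distrib, ← mul_sum, ← mul_sum, sum_add_distrib]
        simp only [sep_perm_eq, d1, d2]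

theorem kids_telescope {b M P : ℕ} (hb : 0 < b) (hN : P * M * b = N) (S : Finset (Fin N)) :
    ∑ p ∈ range P, (((kids b M p S).card : ℝ) - if (kids b M p S).Nonempty then 1 else 0) =
      ((occ b S).card : ℝ) - (occ (b * M) S).card := by
  have hmaps : ∀ c ∈ occ b S, c / M ∈ range P := by
    intro c hc
    obtain ⟨i, -, rfl⟩ := Finset.mem_image.1 hc
    rw [mem_range, Nat.div_div_eq_div_mul, Nat.div_lt_iff_lt_mul]
    · calc i.val < N := i.2
        _ = P * (b * M) := by rw [← hN]; ring
    · rcases Nat.eq_zero_or_pos M with h | h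
      · have hi := i.2
        have : N = 0 := by rw [← hN, h]; simp
        omega
      · positivity
  have h1 : (occ b S).card = ∑ p ∈ range P, (kids b M p S).card :=
    card_eq_sum_card_fiberwise hmaps
  have himg : occ (b * M) S = (occ b S).image (· / M) := by
    simp only [occ, image_image, Function.comp_def, Nat.div_div_eq_div_mul]
  have h2 : (occ (b * M) S).card =
      ((range P).filter fun p => (kids b M p S).Nonempty).card := by
    congr 1; ext p
    simp only [himg, Finset.mem_image, mem_filter, kids, filter_nonempty_iff]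
    constructor
    · rintro ⟨c, hc, rfl⟩; exact ⟨hmaps c hc, c, hc, rfl⟩
    · rintro ⟨-, c, hc, h⟩; exact ⟨c, hc, h⟩
  rw [h1, h2, card_filter]
  push_cast
  rw [sum_sub_distrib]

/-- the embedding of a cell -/
def cellEmb {q I : ℕ} (h : (I + 1) * q ≤ N) : Fin q ↪ Fin N :=
  ⟨fun t => ⟨I * q + t, by rw [add_mul, one_mul] at h; omega⟩, fun a b e => by
    simp only [Fin.mk.injEq] at e; exact Fin.ext (by omega)⟩

theorem map_pre_cell {q I : ℕ} (hq : 0 < q) (h : (I + 1) * q ≤ N) (S : Finset (Fin N)) :
    (pre (cellEmb h) S).map (cellEmb h) = S.filter fun i => i.val / q = I := by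
  ext i
  simp only [pre, Finset.mem_map, mem_filter, mem_univ, true_and]
  constructor
  · rintro ⟨t, ht, rfl⟩
    refine ⟨ht, ?_⟩
    show (I * q + t.val) / q = I
    rw [add_comm, Nat.add_mul_div_right _ _ hq, Nat.div_eq_of_lt t.2, zero_add]
  · rintro ⟨hi, rfl⟩
    have e : cellEmb h ⟨i.val % q, Nat.mod_lt _ hq⟩ = i := Fin.ext (Nat.div_add_mod' i.val q)
    exact ⟨⟨i.val % q, Nat.mod_lt _ hq⟩, by rw [e]; exact hi, e⟩

/-- weight of the sets meeting the cell `I` in few points -/
noncomputable def lowWeight (q k I : ℕ) (f : (Fin N → Bool) → ℝ) : ℝ :=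
  ∑ S, if ((S.filter fun i => i.val / q = I).Nonempty ∧
      (S.filter fun i => i.val / q = I).card ≤ k) then coef f S ^ 2 else 0

theorem lowWeight_le {q I m k : ℕ} (hq : 0 < q) (hm : 0 < m) (hmq : m ≤ q)
    (hI : (I + 1) * q ≤ N) (p0 η : ℝ) (hp0 : 0 < p0) (hη : 0 ≤ η)
    (hk : (9:ℝ) ^ k * p0 ≤ η ^ 2) {f : (Fin N → Bool) → ℝ} (hf : IsCut f) :
    lowWeight q k I f ≤ (η + 2 / (m * p0)) * ∑ t, infl f (cellEmb hI t) +
      8 / (m * p0) * ∑ s : Fin m, sep (fun x => f (x ∘ rot (I * q) q s)) f := by
  have : NeZero q := ⟨hq.ne'⟩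
  have hfit : I * q + q ≤ N := by rwa [← add_one_mul]
  refine le_of_eq_of_le ?_ (cell_low_weight (cellEmb hI)
    (fun s : Fin m => Equiv.addRight (Fin.castLE hmq s)) (fun s => rot (I * q) q s)
    (fun s t => ?_) (fun s j hj => ?_) (fun t s s' h => ?_) k p0 η hp0 hm hη hk hf)
  · rw [lowWeight, sum_filter]
    refine sum_congr rfl fun S _ => ?_
    simp only [← map_pre_cell hq hI, card_map, Finset.map_nonempty]
  · apply Fin.ext
    show (rot (I * q) q s.val (cellEmb hI t) : ℕ) = _
    rw [rot_val hfit]
    show rotN (I * q) q s.val (I * q + t.val) = I * q + (t + Fin.castLE hmq s : Fin q).val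
    rw [rotN, if_pos ⟨by omega, by omega⟩, Fin.val_add, Fin.val_castLE]
    congr 2; omega
  · apply Fin.ext
    rw [rot_val hfit, rotN, if_neg]
    rintro ⟨h1, h2⟩
    exact hj ⟨j.val - I * q, by omega⟩ (Fin.ext (show I * q + (j.val - I * q) = j.val by omega))
  · simpa [Fin.ext_iff] using h

theorem occ_le {q P : ℕ} (hq : 0 < q) (hN : P * q = N) (k : ℕ) (S : Finset (Fin N)) :
    (k:ℝ) * (occ q S).card ≤ S.card + k * ∑ I ∈ range P,
      if ((S.filter fun i => i.val / q = I).Nonempty ∧
        (S.filter fun i => i.val / q = I).card ≤ k) then (1:ℝ) else 0 := by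
  have hsub : occ q S ⊆ range P := by
    intro c hc
    obtain ⟨i, -, rfl⟩ := Finset.mem_image.1 hc
    exact mem_range.2 ((Nat.div_lt_iff_lt_mul hq).2 (by rw [hN]; exact i.2))
  have hcard : S.card = ∑ c ∈ occ q S, (S.filter fun i => i.val / q = c).card :=
    card_eq_sum_card_image _ _
  have key : ∀ c ∈ occ q S, (k:ℝ) ≤ ((S.filter fun i => i.val / q = c).card : ℝ) +
      k * if ((S.filter fun i => i.val / q = c).Nonempty ∧
        (S.filter fun i => i.val / q = c).card ≤ k) then (1:ℝ) else 0 := by
    intro c hc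
    obtain ⟨i, hi, rfl⟩ := Finset.mem_image.1 hc
    have hne : (S.filter fun j => j.val / q = i.val / q).Nonempty :=
      ⟨i, mem_filter.2 ⟨hi, rfl⟩⟩
    split
    · simp
    · rename_i h
      have : k < (S.filter fun j => j.val / q = i.val / q).card := by
        by_contra hh; exact h ⟨hne, not_lt.1 hh⟩
      simp only [mul_zero, add_zero]; exact_mod_cast this.le
  calc (k:ℝ) * (occ q S).card = ∑ c ∈ occ q S, (k:ℝ) := by simp [mul_comm]
    _ ≤ _ := sum_le_sum key
    _ ≤ _ := by
        rw [sum_add_distrib, ← mul_sum, hcard, Nat.cast_sum]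
        gcongr

end Vale.Agent.P238
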